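import Vale.Agent.P120.Spec
import Mathlib.MeasureTheory.Measure.Support

/-!
# P120, piece 7 (4b): a ball all of whose small scales have small tests
-/

open MeasureTheory Metric Finset
open scoped ENNReal NNReal

namespace Vale.Agent.P120

namespace Flat

variable {n d : ℕ} {μ : Measure (Sp d)} {C₀ : ℝ}

/-- A bound on all tests of width `M`. -/
lemma test_bound (hP : PairSpec n d) [IsLocallyFiniteMeasure μ] (hμ : Reg n C₀ μ) (M : ℕ) :
    ∃ B : ℝ, ∀ p ∈ μ.support, ∀ R : ℝ, 0 < R → ∀ φ, IsTest μ M p R φ →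
      |pair n μ p ((M + 1) * R) φ| / R ^ n ≤ B := by
  obtain ⟨⟨C, hC, hb⟩, -⟩ := hP μ C₀ hμ
  refine ⟨C * (((M : ℝ) + 1) * (M + 1) + 1) * ((M : ℝ) + 1) ^ n, fun p hp R hR φ hφ => ?_⟩
  obtain ⟨h1, h2, h3, h4⟩ := hφ
  rw [div_le_iff₀ (pow_pos hR n)]
  refine (hb p hp ((M + 1) * R) 1 _ φ (by positivity) h1 h2 h3 h4).trans (le_of_eq ?_)
  rw [Real.coe_toNNReal _ (by positivity), mul_pow]
  field_simp

lemma bT_nonneg (μ : Measure (Sp d)) (M : ℕ) (p : Sp d) (R : ℝ) (hR : 0 < R) :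
    0 ≤ bT n μ M p R :=
  Real.sSup_nonneg fun t ht => by
    obtain ⟨φ, -, rfl⟩ := ht
    positivity

lemma le_bT (hP : PairSpec n d) [IsLocallyFiniteMeasure μ] (hμ : Reg n C₀ μ) (M : ℕ) {p : Sp d}
    (hp : p ∈ μ.support) {R : ℝ} (hR : 0 < R) {φ : Sp d → Sp d} (hφ : IsTest μ M p R φ) :
    |pair n μ p ((M + 1) * R) φ| / R ^ n ≤ bT n μ M p R := by
  obtain ⟨B, hB⟩ := test_bound hP hμ M
  refine le_csSup ⟨B, ?_⟩ ⟨φ, hφ, rfl⟩
  rintro t ⟨ψ, hψ, rfl⟩
  exact hB p hp R hR ψ hψ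

/-- A test of width one at a nearby point and comparable scale is one of width fifteen. -/
lemma bT_transfer (hP : PairSpec n d) [IsLocallyFiniteMeasure μ] (hμ : Reg n C₀ μ) {z x : Sp d}
    (hz : z ∈ μ.support) {t R : ℝ} (ht : 0 < t) (h1 : t ≤ R) (h2 : R < 8 * t)
    (hd : dist x z ≤ R / 8) : bT n μ 1 x t ≤ 8 ^ n * bT n μ 15 z R := by
  have hR : 0 < R := ht.trans_le h1
  have hb := bT_nonneg (n := n) μ 15 z R hR
  refine Real.sSup_le (fun v hv => ?_) (by positivity)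
  obtain ⟨φ, ⟨p1, p2, p3, p4⟩, rfl⟩ := hv
  have hφ : IsTest μ 15 z R φ := by
    refine ⟨fun y hy => p1 y ?_, p2, p3.weaken (Real.toNNReal_le_toNNReal ?_), p4⟩
    · push_cast at hy ⊢
      linarith [dist_triangle y x z]
    · push_cast
      rw [div_le_div_iff₀ ht hR]
      linarith
  have hz' : ∀ y, (((15 : ℕ) : ℝ) + 1) * R ≤ dist y z → φ y = 0 := hφ.1
  obtain ⟨-, hind, -⟩ := hP μ C₀ hμ
  have he := hind x z ((((1 : ℕ) : ℝ) + 1) * t) ((((15 : ℕ) : ℝ) + 1) * R) _ φ (by positivity)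
    (by positivity) p1 hz' p3 p4
  rw [he]
  calc |pair n μ z ((((15 : ℕ) : ℝ) + 1) * R) φ| / t ^ n
      = |pair n μ z ((((15 : ℕ) : ℝ) + 1) * R) φ| / R ^ n * (R / t) ^ n := by
        rw [div_pow]
        field_simp
    _ ≤ bT n μ 15 z R * 8 ^ n := by
        refine mul_le_mul (le_bT hP hμ 15 hz hR hφ) ?_ (by positivity) hb
        exact pow_le_pow_left₀ (by positivity) (by rw [div_le_iff₀ ht]; linarith) n
    _ = 8 ^ n * bT n μ 15 z R := mul_comm _ _

/-- Mass of a cell from above and below. -/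
lemma cell_mass (hμ : Reg n C₀ μ) {x₀ : Sp d} {r₀ : ℝ} {K : ℕ} (T : Tree μ x₀ r₀ K) (hr : 0 < r₀)
    (hE : ENNReal.ofReal r₀ ≤ Metric.ediam μ.support) {k : ℕ} (hk : k ≤ K) {z : Sp d}
    (hz : z ∈ T.net k) :
    C₀⁻¹ * (r₀ / 8 ^ k / 4) ^ n ≤ μ.real (T.cell k z) ∧
      μ.real (T.cell k z) ≤ C₀ * (2 * (r₀ / 8 ^ k)) ^ n := by
  have hs : 0 < r₀ / 8 ^ k := by positivity
  have hfin : μ (T.cell k z) ≠ ⊤ :=
    ne_top_of_le_ne_top (hμ.fin z (2 * (r₀ / 8 ^ k)))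
      (measure_mono fun y hy => (T.subset k hk z hz hy).2)
  constructor
  · have hle : r₀ / 8 ^ k / 4 ≤ r₀ := by
      have : r₀ / 8 ^ k ≤ r₀ := div_le_self hr.le (one_le_pow₀ (by norm_num))
      linarith
    refine (hμ.lower z (T.mem k hk z hz) _ (by linarith)
      ((ENNReal.ofReal_le_ofReal hle).trans hE)).trans ?_
    have hae : μ.real (ball z (r₀ / 8 ^ k / 4)) =
        μ.real (μ.support ∩ ball z (r₀ / 8 ^ k / 4)) := by
      rw [measureReal_def, measureReal_def,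
        Set.inter_comm μ.support, measure_inter_conull μ.measure_compl_support]
    rw [hae]
    exact measureReal_mono (T.inner k hk z hz) hfin
  · exact (measureReal_mono (fun y hy => (T.subset k hk z hz hy).2) (hμ.fin _ _)).trans
      (hμ.upper z _ (by linarith))

/-- The cell of a point, finitely many generations below. -/
lemma descend {x₀ : Sp d} {r₀ : ℝ} {K : ℕ} (T : Tree μ x₀ r₀ K) {k : ℕ} {z x : Sp d}
    (hz : z ∈ T.net k) (hx : x ∈ T.cell k z) :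
    ∀ j, k + j ≤ K → ∃ w ∈ T.net (k + j), x ∈ T.cell (k + j) w ∧ T.cell (k + j) w ⊆ T.cell k z := by
  intro j
  induction j with
  | zero => exact fun _ => ⟨z, hz, hx, subset_rfl⟩
  | succ j ih =>
    intro hj
    obtain ⟨w, hw, hxw, hsub⟩ := ih (by omega)
    obtain ⟨v, hv, hup, hxv⟩ := (T.split (k + j) (by omega) w hw x).1 hxw
    exact ⟨v, hv, hxv,
      fun y hy => hsub ((T.split (k + j) (by omega) w hw y).2 ⟨v, hv, hup, hy⟩)⟩

/-- One block of generations: if each of its top cells has a large test below, the block carries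
a fixed fraction of the mass. -/
lemma block_le (hμ : Reg n C₀ μ) {x₀ : Sp d} {r₀ : ℝ} {K : ℕ} (T : Tree μ x₀ r₀ K) (hr : 0 < r₀)
    (hE : ENNReal.ofReal r₀ ≤ Metric.ediam μ.support) {k N : ℕ} (hk : k + N ≤ K) {κ : ℝ}
    (hκ : 0 ≤ κ) (b : ℕ → Sp d → ℝ)
    (hbad : ∀ z ∈ T.net k, ∃ j ≤ N, ∃ w ∈ T.net (k + j),
      T.cell (k + j) w ⊆ T.cell k z ∧ κ < b (k + j) w) :
    κ ^ 2 * (C₀⁻¹ * (4 : ℝ)⁻¹ ^ n * (C₀⁻¹ * ((8 : ℝ) ^ N)⁻¹ ^ n * 2⁻¹ ^ n)) *
        (∑ z ∈ T.net k, μ.real (T.cell k z)) ≤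
      ∑ j ∈ range (N + 1), ∑ w ∈ T.net (k + j), b (k + j) w ^ 2 * μ.real (T.cell (k + j) w) := by
  classical
  choose! j hj w hw hsub hb using hbad
  have hC : 0 < C₀ := one_pos.trans_le hμ.one_le
  have hne : ∀ z ∈ T.net k, w z ∈ T.cell (k + j z) (w z) := fun z hz =>
    T.inner _ (by have := hj z hz; omega) _ (hw z hz)
      ⟨T.mem _ (by have := hj z hz; omega) _ (hw z hz), mem_ball_self (by positivity)⟩
  have hinj : ∀ z ∈ T.net k, ∀ z' ∈ T.net k, (⟨j z, w z⟩ : Σ _ : ℕ, Sp d) = ⟨j z', w z'⟩ →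
      z = z' := by
    intro z hz z' hz' h
    by_contra hne'
    simp only [Sigma.mk.injEq, heq_eq_eq] at h
    refine Set.disjoint_left.1 (T.disj k (by omega) hz hz' hne') (hsub z hz (hne z hz)) ?_
    have h2 := hsub z' hz' (hne z' hz')
    rwa [← h.2] at h2
  rw [sum_sigma', mul_sum]
  calc ∑ z ∈ T.net k, κ ^ 2 * (C₀⁻¹ * (4 : ℝ)⁻¹ ^ n * (C₀⁻¹ * ((8 : ℝ) ^ N)⁻¹ ^ n * 2⁻¹ ^ n)) *
        μ.real (T.cell k z)
      ≤ ∑ z ∈ T.net k, b (k + j z) (w z) ^ 2 * μ.real (T.cell (k + j z) (w z)) := by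
        refine sum_le_sum fun z hz => ?_
        have hjN := hj z hz
        have hup := (cell_mass hμ T hr hE (k := k) (by omega) hz).2
        have hlow := (cell_mass hμ T hr hE (k := k + j z) (by omega) (hw z hz)).1
        rw [mul_assoc]
        refine mul_le_mul (pow_le_pow_left₀ hκ (hb z hz).le 2) ?_ (by positivity) (sq_nonneg _)
        refine (mul_le_mul_of_nonneg_left hup (by positivity)).trans (le_trans ?_ hlow)
        have h8 : ((8 : ℝ) ^ N)⁻¹ ≤ ((8 : ℝ) ^ j z)⁻¹ :=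
          inv_anti₀ (by positivity) (pow_le_pow_right₀ (by norm_num) hjN)
        calc C₀⁻¹ * (4 : ℝ)⁻¹ ^ n * (C₀⁻¹ * ((8 : ℝ) ^ N)⁻¹ ^ n * 2⁻¹ ^ n) *
              (C₀ * (2 * (r₀ / 8 ^ k)) ^ n)
            = C₀⁻¹ * (4⁻¹ * ((8 : ℝ) ^ N)⁻¹ * (r₀ / 8 ^ k)) ^ n := by
              simp only [mul_pow, inv_pow]
              field_simp
          _ ≤ C₀⁻¹ * (4⁻¹ * ((8 : ℝ) ^ j z)⁻¹ * (r₀ / 8 ^ k)) ^ n := by gcongr
          _ = C₀⁻¹ * (r₀ / 8 ^ (k + j z) / 4) ^ n := by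
              rw [pow_add]
              congr 2
              field_simp
    _ = ∑ p ∈ (T.net k).image (fun z => (⟨j z, w z⟩ : Σ _ : ℕ, Sp d)),
          b (k + p.1) p.2 ^ 2 * μ.real (T.cell (k + p.1) p.2) :=
        (sum_image (g := fun z => (⟨j z, w z⟩ : Σ _ : ℕ, Sp d))
          (f := fun p => b (k + p.1) p.2 ^ 2 * μ.real (T.cell (k + p.1) p.2)) hinj).symm
    _ ≤ _ := by
        refine sum_le_sum_of_subset_of_nonneg ?_ fun p _ _ => by positivity
        rintro p hp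
        obtain ⟨z, hz, rfl⟩ := mem_image.1 hp
        exact mem_sigma.2 ⟨mem_range.2 (Nat.lt_succ_of_le (hj z hz)), hw z hz⟩

/-- The cells of a generation carry the root. -/
lemma root_le_sum (hμ : Reg n C₀ μ) {x₀ : Sp d} {r₀ : ℝ} {K : ℕ} (T : Tree μ x₀ r₀ K)
    (hr : 0 < r₀) (hE : ENNReal.ofReal r₀ ≤ Metric.ediam μ.support) {k : ℕ} (hk : k ≤ K) :
    C₀⁻¹ * (r₀ / 4) ^ n ≤ ∑ z ∈ T.net k, μ.real (T.cell k z) := by
  have hx : x₀ ∈ T.net 0 := by rw [T.net_zero]; exact mem_singleton_self _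
  have h := (cell_mass hμ T hr hE (Nat.zero_le K) hx).1
  rw [pow_zero, div_one] at h
  have hfin : ∀ z ∈ T.net k, μ (T.cell k z) ≠ ⊤ := fun z hz =>
    ne_top_of_le_ne_top (hμ.fin z (2 * (r₀ / 8 ^ k)))
      (measure_mono fun y hy => (T.subset k hk z hz hy).2)
  rw [← measureReal_biUnion_finset (T.disj k hk) (fun z hz => T.meas k hk z hz) hfin]
  refine h.trans (measureReal_mono (fun y hy => ?_) ?_)
  · obtain ⟨w, hw, hyw, -⟩ := descend T hx hy k (by omega)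
    rw [Nat.zero_add] at hw hyw
    exact Set.mem_biUnion hw hyw
  · exact (measure_biUnion_lt_top (T.net k).finite_toSet fun z hz => (hfin z hz).lt_top).ne

/-- A ball of comparable size with small tests at `N` generations of scales. -/
theorem exists_good (hT : TreeSpec d) (hP : PairSpec n d) (hS : TestSumSpec n d)
    [IsLocallyFiniteMeasure μ] (hμ : Reg n C₀ μ) (hR : RieszBounded n μ) (N : ℕ) {κ : ℝ}
    (hκ : 0 < κ) :
    ∃ τ : ℝ, 0 < τ ∧ ∀ x ∈ μ.support, ∀ r : ℝ, 0 < r →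
      ENNReal.ofReal r ≤ Metric.ediam μ.support → ∃ z ∈ μ.support, ∃ R : ℝ, τ * r ≤ R ∧
        R ≤ r / 16 ∧ dist z x ≤ r / 4 ∧
        ∀ y ∈ μ.support ∩ ball z R, ∀ t : ℝ, R / 8 ^ N ≤ t → t ≤ R → bT n μ 1 y t ≤ κ := by
  obtain ⟨C, -, hC⟩ := hS μ C₀ hμ hR 15
  set κ' := κ / 8 ^ n with hκ'
  have hκp : 0 < κ' := by positivity
  have hC0 : 0 < C₀ := one_pos.trans_le hμ.one_le
  set c := κ' ^ 2 * (C₀⁻¹ * (4 : ℝ)⁻¹ ^ n * (C₀⁻¹ * ((8 : ℝ) ^ (N + 2))⁻¹ ^ n * 2⁻¹ ^ n)) *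
    (C₀⁻¹ * (4 : ℝ)⁻¹ ^ n) with hc
  have hcp : 0 < c := by positivity
  obtain ⟨J, hJ⟩ := exists_nat_gt (C / c)
  rw [div_lt_iff₀ hcp] at hJ
  set K := J * (N + 3) with hK
  refine ⟨(32 * 8 ^ K)⁻¹, by positivity, fun x hx r hr hrE => ?_⟩
  set r₀ := r / 8 with hr₀
  have hr0 : 0 < r₀ := by positivity
  have hE : ENNReal.ofReal r₀ ≤ Metric.ediam μ.support :=
    (ENNReal.ofReal_le_ofReal (by rw [hr₀]; linarith)).trans hrE
  obtain ⟨T⟩ := hT μ x hx r₀ hr0 K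
  set b : ℕ → Sp d → ℝ := fun k z => bT n μ 15 z (cellRad r₀ k) with hb
  by_cases hgood : ∃ k, k + (N + 2) ≤ K ∧ ∃ z ∈ T.net k, ∀ j ≤ N + 2, ∀ w ∈ T.net (k + j),
      T.cell (k + j) w ⊆ T.cell k z → b (k + j) w ≤ κ'
  swap
  · exfalso
    push Not at hgood
    have h2 : ∀ i ∈ range J, c * r₀ ^ n ≤ ∑ j ∈ range (N + 3),
        ∑ w ∈ T.net (i * (N + 3) + j),
          b (i * (N + 3) + j) w ^ 2 * μ.real (T.cell (i * (N + 3) + j) w) := by
      intro i hi
      have hiK : i * (N + 3) + (N + 2) ≤ K := by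
        have := Nat.mul_le_mul_right (N + 3) (Nat.succ_le_of_lt (mem_range.1 hi))
        rw [hK, Nat.succ_mul] at *
        omega
      refine le_trans (le_of_eq ?_) ((mul_le_mul_of_nonneg_left
        (root_le_sum hμ T hr0 hE (k := i * (N + 3)) (by omega)) (by positivity)).trans
        (block_le hμ T hr0 hE hiK hκp.le b (hgood _ hiK)))
      simp only [hc, div_eq_mul_inv, mul_pow, inv_pow]
      ring
    have h3 := sum_le_sum h2
    rw [sum_const, card_range, nsmul_eq_mul] at h3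
    have h4 : ∀ m : ℕ, ∑ i ∈ range m, ∑ j ∈ range (N + 3),
        ∑ w ∈ T.net (i * (N + 3) + j),
          b (i * (N + 3) + j) w ^ 2 * μ.real (T.cell (i * (N + 3) + j) w) =
        ∑ k ∈ range (m * (N + 3)), ∑ w ∈ T.net k, b k w ^ 2 * μ.real (T.cell k w) := by
      intro m
      induction m with
      | zero => simp
      | succ m ih => rw [sum_range_succ, ih, Nat.succ_mul, sum_range_add _ (m * (N + 3)) (N + 3)]
    rw [h4 J] at h3
    have h5 : ∑ k ∈ range (J * (N + 3)), ∑ w ∈ T.net k, b k w ^ 2 * μ.real (T.cell k w) ≤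
        C * r₀ ^ n :=
      (sum_le_sum_of_subset_of_nonneg (range_mono (Nat.le_succ K))
        fun k _ _ => sum_nonneg fun w _ => by positivity).trans (hC x hx r₀ hr0 hE K T)
    nlinarith [pow_pos hr0 n]
  obtain ⟨k, hk, z, hz, hgood⟩ := hgood
  have hs : r₀ / 8 ^ K ≤ r₀ / 8 ^ k :=
    div_le_div_of_nonneg_left hr0.le (by positivity) (pow_le_pow_right₀ (by norm_num) (by omega))
  have hs' : r₀ / 8 ^ k ≤ r₀ := div_le_self hr0.le (one_le_pow₀ (by norm_num))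
  refine ⟨z, T.mem k (by omega) z hz, r₀ / 8 ^ k / 4, ?_, ?_, ?_, ?_⟩
  · calc (32 * 8 ^ K)⁻¹ * r = r₀ / 8 ^ K / 4 := by rw [hr₀]; ring
      _ ≤ _ := by linarith
  · rw [hr₀] at hs' ⊢
    linarith
  · have hzc : z ∈ T.cell k z := T.inner k (by omega) z hz
      ⟨T.mem k (by omega) z hz, mem_ball_self (by positivity)⟩
    have hx0 : x ∈ T.net 0 := by rw [T.net_zero]; exact mem_singleton_self _
    have hk0 : T.cell k z ⊆ T.cell 0 x := by
      intro y hy
      clear hgood hzc hs hs'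
      induction k generalizing z with
      | zero => rw [T.net_zero, mem_singleton] at hz; rwa [hz] at hy
      | succ k ih =>
        refine ih (by omega) (T.up k z) (T.up_mem k (by omega) z hz) ?_
        exact (T.split k (by omega) _ (T.up_mem k (by omega) z hz) y).2 ⟨z, hz, rfl, hy⟩
    have h := (T.subset 0 (Nat.zero_le _) x hx0 (hk0 hzc)).2
    rw [mem_ball, pow_zero, div_one] at h
    rw [hr₀] at h
    linarith
  · intro y hy t ht1 ht2
    have hyc : y ∈ T.cell k z := T.inner k (by omega) z hz hy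
    set s := r₀ / 8 ^ k with hsdef
    have ht : 0 < t := lt_of_lt_of_le (by positivity) ht1
    have hex : ∃ j, 16 * s / 8 ^ j < 8 * t := by
      refine ⟨N + 2, lt_of_lt_of_le ?_ (mul_le_mul_of_nonneg_left ht1 (by norm_num : (0 : ℝ) ≤ 8))⟩
      rw [pow_add]
      have : 0 < s / 8 ^ N := by positivity
      calc 16 * s / (8 ^ N * 8 ^ 2) = (s / 8 ^ N) * (1 / 4) := by ring
        _ < (s / 8 ^ N) * 2 := by linarith
        _ = 8 * (s / 4 / 8 ^ N) := by ring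
    classical
    set j := Nat.find hex with hjdef
    have hj1 := Nat.find_spec hex
    rw [← hjdef] at hj1
    have hjN : j ≤ N + 2 := by
      refine Nat.find_min' hex ?_
      refine lt_of_lt_of_le ?_ (mul_le_mul_of_nonneg_left ht1 (by norm_num : (0 : ℝ) ≤ 8))
      rw [pow_add]
      have : 0 < s / 8 ^ N := by positivity
      calc 16 * s / (8 ^ N * 8 ^ 2) = (s / 8 ^ N) * (1 / 4) := by ring
        _ < (s / 8 ^ N) * 2 := by linarith
        _ = 8 * (s / 4 / 8 ^ N) := by ring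
    have hj2 : t ≤ 16 * s / 8 ^ j := by
      rcases Nat.eq_zero_or_pos j with h0 | h0
      · rw [h0, pow_zero, div_one]
        linarith
      · have h := Nat.find_min hex (show j - 1 < j by omega)
        rw [not_lt] at h
        have e1 : (8 : ℝ) ^ j = 8 ^ (j - 1) * 8 := by
          rw [← pow_succ, Nat.sub_add_cancel h0]
        rw [e1, ← div_div, le_div_iff₀ (by norm_num : (0 : ℝ) < 8), mul_comm]
        exact h
    obtain ⟨w, hw, hyw, hsub⟩ := descend T hz hyc j (by omega)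
    have hcr : cellRad r₀ (k + j) = 16 * s / 8 ^ j := by
      rw [cellRad, hsdef, pow_add]
      ring
    have hdist : dist y w ≤ cellRad r₀ (k + j) / 8 := by
      refine (le_of_lt (T.subset (k + j) (by omega) w hw hyw).2).trans_eq ?_
      rw [cellRad]
      ring
    refine (bT_transfer hP hμ (T.mem (k + j) (by omega) w hw) ht (hcr ▸ hj2) (hcr ▸ hj1)
      hdist).trans ?_
    calc (8 : ℝ) ^ n * bT n μ 15 w (cellRad r₀ (k + j)) ≤ 8 ^ n * κ' :=
          mul_le_mul_of_nonneg_left (hgood j hjN w hw hsub) (by positivity)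
      _ = κ := by rw [hκ']; field_simp

end Flat

end Vale.Agent.P120
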