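import Vale.Agent.P120.Spec
import Mathlib.MeasureTheory.Measure.Support
import Mathlib.Analysis.InnerProductSpace.PiL2
import Mathlib.Analysis.InnerProductSpace.Projection.FiniteDimensional

/-!
# P120, piece 7 (4c): induction on the dimension of the approximating plane
-/

open MeasureTheory Metric Module
open scoped ENNReal NNReal RealInnerProductSpace

namespace Vale.Agent.P120

namespace Flat

variable {n d : ℕ} {μ : Measure (Sp d)} {C₀ : ℝ}

/-- `μ` lies in `B (y, S)` within `η S` of `y + V`. -/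
def Near (μ : Measure (Sp d)) (y : Sp d) (S η : ℝ) (V : Submodule ℝ (Sp d)) : Prop :=
  ∀ q ∈ μ.support ∩ ball y S, ∃ v ∈ V, ‖q - y - v‖ ≤ η * S

/-- A plane of dimension above `n` has a hole of comparable size next to each point. -/
lemma exists_hole (hμ : Reg n C₀ μ) :
    ∃ c : ℝ, 0 < c ∧ c ≤ 1 ∧ ∀ y ∈ μ.support, ∀ S : ℝ, 0 < S →
      ENNReal.ofReal S ≤ Metric.ediam μ.support → ∀ V : Submodule ℝ (Sp d), n < finrank ℝ V →
        ∃ v ∈ V, ‖v‖ ≤ S / 4 ∧ Disjoint (ball (y + v) (c * S)) μ.support := by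
  have hC : 0 < C₀ := one_pos.trans_le hμ.one_le
  obtain ⟨K, hK⟩ := exists_nat_gt (C₀ ^ 2 * (16 * ((n : ℝ) + 1)) ^ n)
  have hK0 : 0 < (K : ℝ) := lt_of_le_of_lt (by positivity) hK
  have hK1 : (1 : ℝ) ≤ K := by
    have : 0 < K := by exact_mod_cast hK0
    exact_mod_cast this
  refine ⟨(16 * K * ((n : ℝ) + 1))⁻¹, by positivity, inv_le_one_of_one_le₀ (by nlinarith), ?_⟩
  intro y hy S hS hSE V hV
  set ρ := (16 * K * ((n : ℝ) + 1))⁻¹ * S with hρ
  have hρ0 : 0 < ρ := by positivity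
  set e : Fin (n + 1) → Sp d :=
    fun i => (stdOrthonormalBasis ℝ V (Fin.castLE hV i) : Sp d) with he
  have heo : Orthonormal ℝ e := by
    have h := ((stdOrthonormalBasis ℝ V).orthonormal.comp _
      (Fin.castLE_injective (Nat.succ_le_of_lt hV))).comp_linearIsometry V.subtypeₗᵢ
    exact h
  set p : (Fin (n + 1) → Fin K) → Sp d := fun a => ∑ i, (((a i : ℕ) : ℝ) * (4 * ρ)) • e i with hp
  have hpV : ∀ a, p a ∈ V := fun a =>
    Submodule.sum_mem _ fun i _ => Submodule.smul_mem _ _ (SetLike.coe_mem _)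
  have hpn : ∀ a, ‖p a‖ ≤ S / 4 := fun a => by
    refine (norm_sum_le _ _).trans ?_
    calc ∑ i, ‖(((a i : ℕ) : ℝ) * (4 * ρ)) • e i‖ ≤ ∑ _i : Fin (n + 1), (K : ℝ) * (4 * ρ) := by
          refine Finset.sum_le_sum fun i _ => ?_
          rw [norm_smul, heo.1 i, mul_one, Real.norm_eq_abs, abs_of_nonneg (by positivity)]
          gcongr
          exact (a i).2.le
      _ = S / 4 := by
          rw [Finset.sum_const, Finset.card_univ, Fintype.card_fin, nsmul_eq_mul, hρ]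
          push_cast
          field_simp
          ring
  have hsep : ∀ a b, a ≠ b → 4 * ρ ≤ ‖p a - p b‖ := by
    intro a b hab
    obtain ⟨i, hi⟩ := Function.ne_iff.1 hab
    have h1 : ⟪e i, p a - p b⟫ = (((a i : ℕ) : ℝ) - ((b i : ℕ) : ℝ)) * (4 * ρ) := by
      simp only [hp, inner_sub_right, heo.inner_right_fintype]
      ring
    have h2 := abs_real_inner_le_norm (e i) (p a - p b)
    rw [h1, heo.1 i, one_mul, abs_mul, abs_of_pos (by positivity : 0 < 4 * ρ)] at h2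
    refine le_trans ?_ h2
    refine le_mul_of_one_le_left (by positivity) ?_
    have h3 : ((a i : ℕ) : ℤ) - (b i : ℕ) ≠ 0 :=
      sub_ne_zero.2 fun h => hi (Fin.ext (by exact_mod_cast h))
    have h4 : (1 : ℤ) ≤ |((a i : ℕ) : ℤ) - (b i : ℕ)| := Int.one_le_abs h3
    exact_mod_cast h4
  by_contra hcon
  push Not at hcon
  have hmeet : ∀ a, ∃ q ∈ μ.support, dist q (y + p a) < ρ := fun a => by
    obtain ⟨q, hq1, hq2⟩ := Set.not_disjoint_iff.1 (hcon (p a) (hpV a) (hpn a))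
    exact ⟨q, hq2, hq1⟩
  choose q hq hqd using hmeet
  have hρS : 8 * ρ ≤ S := by
    rw [hρ, ← mul_assoc]
    refine mul_le_of_le_one_left hS.le ?_
    rw [mul_inv_le_iff₀ (by positivity)]
    nlinarith
  have hdis : Pairwise (Function.onFun Disjoint fun a => ball (q a) ρ) := fun a b hab => by
    refine ball_disjoint_ball ?_
    have h := hsep a b hab
    rw [← dist_eq_norm, ← dist_add_left y (p a) (p b)] at h
    have := dist_triangle4 (y + p a) (q a) (q b) (y + p b)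
    rw [dist_comm (y + p a) (q a)] at this
    linarith [hqd a, hqd b]
  have hsub : ∀ a, ball (q a) ρ ⊆ ball y S := fun a w hw => by
    rw [mem_ball] at hw ⊢
    have h1 : dist (y + p a) y ≤ S / 4 := by
      rw [dist_self_add_left]
      exact hpn a
    linarith [dist_triangle4 w (q a) (y + p a) y, hqd a]
  have hlow : ∀ a, C₀⁻¹ * ρ ^ n ≤ μ.real (ball (q a) ρ) := fun a =>
    hμ.lower _ (hq a) ρ hρ0 ((ENNReal.ofReal_le_ofReal (by linarith)).trans hSE)
  have hsum : (K : ℝ) ^ (n + 1) * (C₀⁻¹ * ρ ^ n) ≤ C₀ * S ^ n := by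
    calc (K : ℝ) ^ (n + 1) * (C₀⁻¹ * ρ ^ n)
        = ∑ _a : Fin (n + 1) → Fin K, C₀⁻¹ * ρ ^ n := by simp
      _ ≤ ∑ a, μ.real (ball (q a) ρ) := Finset.sum_le_sum fun a _ => hlow a
      _ = μ.real (⋃ a, ball (q a) ρ) :=
          (measureReal_iUnion_fintype hdis (fun a => measurableSet_ball)
            (fun a => hμ.fin _ _)).symm
      _ ≤ μ.real (ball y S) := measureReal_mono (Set.iUnion_subset hsub) (hμ.fin _ _)
      _ ≤ C₀ * S ^ n := hμ.upper y S hS
  have e1 : (K : ℝ) ^ (n + 1) * (C₀⁻¹ * ρ ^ n) =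
      K * C₀⁻¹ * ((16 * ((n : ℝ) + 1)) ^ n)⁻¹ * S ^ n := by
    rw [hρ]
    simp only [mul_pow, inv_pow, mul_inv]
    field_simp
    ring
  rw [e1] at hsum
  have h2 : (K : ℝ) ≤ C₀ ^ 2 * (16 * ((n : ℝ) + 1)) ^ n := by
    have h3 := le_of_mul_le_mul_right hsum (pow_pos hS n)
    rw [mul_assoc, ← mul_inv, ← div_eq_mul_inv, div_le_iff₀ (by positivity)] at h3
    calc (K : ℝ) ≤ C₀ * (C₀ * (16 * ((n : ℝ) + 1)) ^ n) := h3
      _ = _ := by ring
  linarith

/-- One step: a touching point lowers the dimension. -/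
lemma step (hTo : TouchSpec n d) [IsLocallyFiniteMeasure μ] (hμ : Reg n C₀ μ) {ε : ℝ}
    (hε : 0 < ε) : ∃ (κ τ η : ℝ), 0 < κ ∧ 0 < τ ∧ 0 < η ∧
      ∀ y ∈ μ.support, ∀ S : ℝ, 0 < S → ENNReal.ofReal S ≤ Metric.ediam μ.support →
        ∀ V : Submodule ℝ (Sp d), n < finrank ℝ V → Near μ y S η V →
        (∀ x ∈ μ.support ∩ ball y S, ∀ t : ℝ, τ * S ≤ t → t ≤ S → bT n μ 1 x t ≤ κ) →
        ∃ x ∈ μ.support, ∃ s : ℝ, τ * S ≤ s ∧ dist x y + s ≤ S ∧
          ∃ W : Submodule ℝ (Sp d), finrank ℝ W + 1 = finrank ℝ V ∧ Near μ x s ε W := by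
  obtain ⟨c, hc, hc1, hhole⟩ := exists_hole hμ
  obtain ⟨N, κ, hκ, htouch⟩ := hTo μ C₀ hμ (ε / 8) (by positivity)
  set τ := c / 8 ^ N with hτ
  have hτp : 0 < τ := by positivity
  refine ⟨κ, τ, min (c / 2) (ε * τ * c / 32), hκ, hτp, by positivity, ?_⟩
  intro y hy S hS hSE V hV hnear hsmall
  set η := min (c / 2) (ε * τ * c / 32) with hη
  have hη0 : 0 < η := by positivity
  have hηc : η ≤ c / 2 := min_le_left _ _
  have hηε : η ≤ ε * τ * c / 32 := min_le_right _ _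
  obtain ⟨v₀, hv₀, hv₀n, hdis⟩ := hhole y hy S hS hSE V hV
  set z := y + v₀ with hz
  obtain ⟨x, hx, hxd⟩ := μ.isClosed_support.exists_infDist_eq_dist ⟨y, hy⟩ z
  set ρ := dist z x with hρ
  have hρlow : c * S ≤ ρ := not_lt.1 fun h =>
    Set.disjoint_left.1 hdis (by rwa [mem_ball, dist_comm]) hx
  have hρp : 0 < ρ := (mul_pos hc hS).trans_le hρlow
  have hρS : ρ ≤ S / 4 := by
    rw [← hxd]
    refine (infDist_le_dist_of_mem hy).trans ?_
    rw [hz, dist_self_add_left]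
    exact hv₀n
  have hdis' : Disjoint (ball z ρ) μ.support := Set.disjoint_left.2 fun w hw hwE => by
    rw [mem_ball, dist_comm] at hw
    exact absurd (infDist_le_dist_of_mem hwE) (by rw [hxd]; exact not_le.2 hw)
  have hxy : dist x y ≤ S / 2 := by
    have h1 : dist z y ≤ S / 4 := by rw [hz, dist_self_add_left]; exact hv₀n
    linarith [dist_triangle x z y, dist_comm x z]
  obtain ⟨k, hk, hstrip⟩ := htouch z x ρ hρp
    ((ENNReal.ofReal_le_ofReal (by linarith)).trans hSE) hx rfl hdis' fun k hk => by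
      refine hsmall x ⟨hx, by rw [mem_ball]; linarith⟩ _ ?_
        ((div_le_self hρp.le (one_le_pow₀ (by norm_num))).trans (by linarith))
      calc τ * S = c * S / 8 ^ N := by rw [hτ]; ring
        _ ≤ ρ / 8 ^ N := by gcongr
        _ ≤ ρ / 8 ^ k := by
            refine div_le_div_of_nonneg_left hρp.le (by positivity) ?_
            exact pow_le_pow_right₀ (by norm_num) hk
  set s := ρ / 8 ^ k with hsdef
  have hs : τ * S ≤ s := by
    calc τ * S = c * S / 8 ^ N := by rw [hτ]; ring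
      _ ≤ ρ / 8 ^ N := by gcongr
      _ ≤ s := div_le_div_of_nonneg_left hρp.le (by positivity)
          (pow_le_pow_right₀ (by norm_num) hk)
  have hsρ : s ≤ ρ := div_le_self hρp.le (one_le_pow₀ (by norm_num))
  have hsp : 0 < s := (mul_pos hτp hS).trans_le hs
  refine ⟨x, hx, s, hs, by linarith, ?_⟩
  obtain ⟨u₀, hu₀, hu₀n⟩ := hnear x ⟨hx, by rw [mem_ball]; linarith⟩
  set e := ρ⁻¹ • (z - x) with he
  set e₀ := ρ⁻¹ • (v₀ - u₀) with he₀
  have he₀V : e₀ ∈ V := V.smul_mem _ (V.sub_mem hv₀ hu₀)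
  have hne : ‖e‖ = 1 := by
    rw [he, norm_smul, norm_inv, Real.norm_eq_abs, abs_of_pos hρp, ← dist_eq_norm, ← hρ]
    field_simp
  have hee : ‖e₀ - e‖ ≤ η / c := by
    rw [he, he₀, ← smul_sub, norm_smul, norm_inv, Real.norm_eq_abs, abs_of_pos hρp,
      inv_mul_le_iff₀ hρp, hz, show v₀ - u₀ - (y + v₀ - x) = x - y - u₀ by abel]
    calc ‖x - y - u₀‖ ≤ η * S := hu₀n
      _ = η / c * (c * S) := by field_simp
      _ ≤ η / c * ρ := by gcongr
      _ = ρ * (η / c) := mul_comm _ _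
  have hηc2 : η / c ≤ 1 / 2 := by rw [div_le_iff₀ hc]; linarith
  have hhalf : 1 / 2 ≤ ‖e₀‖ := by
    have := norm_sub_norm_le e e₀
    rw [hne, norm_sub_rev e e₀] at this
    linarith
  have he₀0 : e₀ ≠ 0 := norm_pos_iff.1 (by linarith)
  refine ⟨(ℝ ∙ e₀)ᗮ ⊓ V, ?_, ?_⟩
  · have h := Submodule.finrank_add_inf_finrank_orthogonal
      ((Submodule.span_singleton_le_iff_mem e₀ V).2 he₀V)
    rw [finrank_span_singleton he₀0] at h
    omega
  intro q hq
  obtain ⟨v₁, hv₁, hv₁n⟩ := hnear q ⟨hq.1, by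
    have h' := hq.2
    rw [mem_ball] at h' ⊢
    linarith [dist_triangle q x y]⟩
  set u := q - x with hu
  set v := v₁ - u₀ with hv
  have hvV : v ∈ V := V.sub_mem hv₁ hu₀
  have huv : ‖u - v‖ ≤ 2 * η * S := by
    rw [hu, hv, show q - x - (v₁ - u₀) = (q - y - v₁) - (x - y - u₀) by abel]
    linarith [norm_sub_le (q - y - v₁) (x - y - u₀)]
  have hus : ‖u‖ ≤ s := by
    rw [hu, ← dist_eq_norm]
    exact (mem_ball.1 hq.2).le
  have heu : |⟪e, u⟫| ≤ ε / 8 * s := hstrip q hq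
  set a := ⟪e₀, v⟫ with ha
  have hae : |a| ≤ ‖e₀‖ * (2 * η * S) + η / c * s + ε / 8 * s := by
    have e1 : a = ⟪e₀, v - u⟫ + ⟪e₀ - e, u⟫ + ⟪e, u⟫ := by
      simp only [ha, hu, hv, inner_sub_right, inner_sub_left]
      ring
    rw [e1]
    refine (abs_add_three _ _ _).trans (add_le_add_three ?_ ?_ heu)
    · refine (abs_real_inner_le_norm _ _).trans ?_
      rw [norm_sub_rev v u]
      exact mul_le_mul_of_nonneg_left huv (norm_nonneg _)
    · exact (abs_real_inner_le_norm _ _).trans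
        (mul_le_mul hee hus (norm_nonneg _) (by positivity))
  refine ⟨v - (a / ‖e₀‖ ^ 2) • e₀, Submodule.mem_inf.2 ⟨?_, V.sub_mem hvV (V.smul_mem _ he₀V)⟩, ?_⟩
  · rw [Submodule.mem_orthogonal_singleton_iff_inner_right, inner_sub_right, inner_smul_right,
      real_inner_self_eq_norm_sq, ← ha]
    field_simp
    ring
  have hn0 : 0 < ‖e₀‖ := by linarith
  calc ‖u - (v - (a / ‖e₀‖ ^ 2) • e₀)‖ ≤ ‖u - v‖ + ‖(a / ‖e₀‖ ^ 2) • e₀‖ := by
        rw [sub_sub_eq_add_sub, add_sub_right_comm]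
        exact norm_add_le _ _
    _ = ‖u - v‖ + |a| / ‖e₀‖ := by
        rw [norm_smul, Real.norm_eq_abs, abs_div, abs_pow, abs_norm]
        field_simp
    _ ≤ 2 * η * S + (2 * η * S + 2 * (η / c * s) + 2 * (ε / 8 * s)) := by
        refine add_le_add huv ?_
        rw [div_le_iff₀ hn0]
        have h1 : 0 ≤ η / c * s := by positivity
        have h2 : 0 ≤ ε / 8 * s := by positivity
        have h3 := mul_le_mul_of_nonneg_left hhalf h1
        have h4 := mul_le_mul_of_nonneg_left hhalf h2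
        linarith
    _ ≤ ε * s := by
        have h1 : η * S ≤ ε * c / 32 * s := by
          calc η * S ≤ ε * τ * c / 32 * S := mul_le_mul_of_nonneg_right hηε hS.le
            _ = ε * c / 32 * (τ * S) := by ring
            _ ≤ _ := mul_le_mul_of_nonneg_left hs (by positivity)
        have h2 : η / c ≤ ε / 32 := by
          rw [div_le_iff₀ hc]
          have hτ1 : τ ≤ 1 := by
            rw [hτ]
            exact (div_le_self hc.le (one_le_pow₀ (by norm_num))).trans hc1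
          nlinarith [mul_le_mul_of_nonneg_left hτ1 (mul_pos hε hc).le]
        have h3 : ε * c / 32 * s ≤ ε / 32 * s := by
          refine mul_le_mul_of_nonneg_right ?_ hsp.le
          nlinarith
        have h4 := mul_le_mul_of_nonneg_right h2 hsp.le
        have h5 : 0 ≤ ε * s := by positivity
        linarith

/-- The induction from the whole space down to dimension `n`. -/
lemma induct (hTo : TouchSpec n d) [IsLocallyFiniteMeasure μ] (hμ : Reg n C₀ μ) :
    ∀ j : ℕ, n + j ≤ d → ∀ ε : ℝ, 0 < ε → ∃ (N : ℕ) (κ τ : ℝ), 0 < κ ∧ 0 < τ ∧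
      ∀ x₀ ∈ μ.support, ∀ R : ℝ, 0 < R → ENNReal.ofReal R ≤ Metric.ediam μ.support →
        (∀ x ∈ μ.support ∩ ball x₀ R, ∀ t : ℝ, R / 8 ^ N ≤ t → t ≤ R → bT n μ 1 x t ≤ κ) →
        ∃ y ∈ μ.support, ∃ S : ℝ, τ * R ≤ S ∧ dist y x₀ + S ≤ R ∧
          ∃ V : Submodule ℝ (Sp d), finrank ℝ V + j = d ∧ Near μ y S ε V := by
  intro j
  induction j with
  | zero =>
    intro _ ε hε
    refine ⟨0, 1, 1, one_pos, one_pos, fun x₀ hx R hR _ _ => ⟨x₀, hx, R, by rw [one_mul],
      by rw [dist_self, zero_add], ⊤, ?_, fun q _ => ⟨q - x₀, Submodule.mem_top, ?_⟩⟩⟩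
    · rw [finrank_top, finrank_euclideanSpace_fin, add_zero]
    · rw [sub_self, norm_zero]
      positivity
  | succ j ih =>
    intro hj ε hε
    obtain ⟨κ₁, τ₁, η, hκ₁, hτ₁, hη, hstep⟩ := step hTo hμ hε
    obtain ⟨N₂, κ₂, τ₂, hκ₂, hτ₂, hrec⟩ := ih (by omega) η hη
    obtain ⟨N₃, hN₃⟩ := exists_pow_lt_of_lt_one (mul_pos hτ₁ hτ₂) (by norm_num : (8 : ℝ)⁻¹ < 1)
    refine ⟨max N₂ N₃, min κ₁ κ₂, τ₁ * τ₂, lt_min hκ₁ hκ₂, by positivity,
      fun x₀ hx R hR hRE hb => ?_⟩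
    obtain ⟨y, hy, S, hS, hyS, V, hV, hnear⟩ := hrec x₀ hx R hR hRE fun x hx t ht1 ht2 =>
      (hb x hx t ((div_le_div_of_nonneg_left hR.le (by positivity)
        (pow_le_pow_right₀ (by norm_num) (le_max_left _ _))).trans ht1) ht2).trans (min_le_right _ _)
    have hSp : 0 < S := (mul_pos hτ₂ hR).trans_le hS
    have hd := dist_nonneg (x := y) (y := x₀)
    obtain ⟨x, hxE, s, hs, hxs, W, hW, hnW⟩ := hstep y hy S hSp
      ((ENNReal.ofReal_le_ofReal (by linarith)).trans hRE) V (by omega) hnear fun x hxy t ht1 ht2 =>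
      (hb x ⟨hxy.1, by
        have h' := hxy.2
        rw [mem_ball] at h' ⊢
        linarith [dist_triangle x y x₀]⟩ t (by
        calc R / 8 ^ max N₂ N₃ ≤ R / 8 ^ N₃ :=
              div_le_div_of_nonneg_left hR.le (by positivity)
                (pow_le_pow_right₀ (by norm_num) (le_max_right _ _))
          _ = (8 : ℝ)⁻¹ ^ N₃ * R := by rw [inv_pow]; ring
          _ ≤ τ₁ * τ₂ * R := mul_le_mul_of_nonneg_right hN₃.le hR.le
          _ = τ₁ * (τ₂ * R) := by ring
          _ ≤ τ₁ * S := by gcongr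
          _ ≤ t := ht1) (by linarith)).trans (min_le_left _ _)
    refine ⟨x, hxE, s, ?_, by linarith [dist_triangle x y x₀], W, by omega, hnW⟩
    calc τ₁ * τ₂ * R = τ₁ * (τ₂ * R) := by ring
      _ ≤ τ₁ * S := by gcongr
      _ ≤ s := hs

end Flat

end Vale.Agent.P120
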