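import Vale.Agent.P120.Flat.Good
import Vale.Agent.P120.Flat.Induct

/-!
# P120, piece 7: every ball holds a smaller almost flat ball
-/

open MeasureTheory Metric Module
open scoped ENNReal NNReal RealInnerProductSpace

namespace Vale.Agent.P120

variable {n d : ℕ}

open Flat in
/-- Every ball holds a smaller almost flat ball of comparable size. -/
theorem flat (hd : n ≤ d) (hT : TreeSpec d) (hP : PairSpec n d) (hS : TestSumSpec n d)
    (hTo : TouchSpec n d) : FlatSpec n d := by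
  intro μ _ C₀ hμ hR ε hε
  obtain ⟨N, κ, τ₁, hκ, hτ₁, hind⟩ := induct hTo hμ (d - n) (by omega) ε hε
  obtain ⟨τ₂, hτ₂, hgood⟩ := exists_good hT hP hS hμ hR N hκ
  refine ⟨τ₁ * τ₂, by positivity, fun x hx r hr hrE => ?_⟩
  obtain ⟨z, hz, R, hR1, hR2, hzx, hb⟩ := hgood x hx r hr hrE
  have hRp : 0 < R := (mul_pos hτ₂ hr).trans_le hR1
  obtain ⟨y, hy, S, hS1, hyS, V, hV, hnear⟩ := hind z hz R hRp
    ((ENNReal.ofReal_le_ofReal (by linarith)).trans hrE) hb
  have hSp : 0 < S := (mul_pos hτ₁ hRp).trans_le hS1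
  have hd1 := dist_nonneg (x := y) (y := z)
  have hVn : finrank ℝ V = n := by omega
  set b := (stdOrthonormalBasis ℝ V).reindex (finCongr hVn) with hbdef
  refine ⟨y, hy, by linarith [dist_triangle y z x], S, ?_, by linarith,
    ⟨y, fun i => (b i : Sp d), b.orthonormal.comp_linearIsometry V.subtypeₗᵢ⟩,
    by rw [dist_self]; exact hSp.le, fun q hq => ?_⟩
  · calc τ₁ * τ₂ * r = τ₁ * (τ₂ * r) := by ring
      _ ≤ τ₁ * R := by gcongr
      _ ≤ S := hS1
  obtain ⟨v, hv, hvn⟩ := hnear q hq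
  have hproj : V.starProjection (q - y) = ∑ i, ⟪(b i : Sp d), q - y⟫ • (b i : Sp d) := by
    rw [b.starProjection_eq_sum_rankOne]
    simp
  have hnrm : ‖q - y - V.starProjection (q - y)‖ ≤ ‖q - y - v‖ := by
    rw [V.starProjection_minimal (q - y)]
    exact ciInf_le ⟨0, by rintro _ ⟨w, rfl⟩; exact norm_nonneg _⟩ (⟨v, hv⟩ : V)
  rw [hproj] at hnrm
  exact hnrm.trans hvn

end Vale.Agent.P120
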