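import Vale.Agent.P120.Pairing

/-!
# P120: touching points of holes

At a point `x` of the support on the boundary of a ball free of it, with `e` the inner normal,
`g y = |y - x|² / 2ρ - ⟪e, y - x⟫` is not negative on the support. The pairing with bumps of unit
mass in direction `e` changes by little from one scale to the next when the tests are small, and
it dominates the logarithmic integral of `g`, so at some scale the support lies in a strip.
-/

open MeasureTheory Metric Set Filter Topology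
open scoped RealInnerProductSpace ENNReal NNReal

namespace Vale.Agent.P120

variable {n d : ℕ}

namespace Touch

open Pairing

/-- The tent equal to one on half the ball. -/
noncomputable def bump (x : Sp d) (r : ℝ) (y : Sp d) : ℝ := max 0 (min 1 (2 - 2 * dist y x / r))

lemma bump_nonneg (x : Sp d) (r : ℝ) (y : Sp d) : 0 ≤ bump x r y := le_max_left _ _

lemma bump_le_one (x : Sp d) (r : ℝ) (y : Sp d) : bump x r y ≤ 1 :=
  max_le zero_le_one (min_le_left _ _)

lemma bump_zero {x : Sp d} {r : ℝ} (hr : 0 < r) {y : Sp d} (h : r ≤ dist y x) :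
    bump x r y = 0 := by
  refine max_eq_left ((min_le_right _ _).trans ?_)
  have : (2 : ℝ) ≤ 2 * dist y x / r := by rw [le_div_iff₀ hr]; linarith
  linarith

lemma bump_one {x : Sp d} {r : ℝ} (hr : 0 < r) {y : Sp d} (h : dist y x ≤ r / 2) :
    bump x r y = 1 := by
  have : 2 * dist y x / r ≤ 1 := by rw [div_le_one hr]; linarith
  rw [bump, min_eq_left (by linarith), max_eq_right zero_le_one]

lemma abs_bump_sub {x : Sp d} {r : ℝ} (hr : 0 < r) (y z : Sp d) :
    |bump x r y - bump x r z| ≤ 2 / r * dist y z := by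
  simp only [bump, max_comm (0 : ℝ)]
  refine (abs_max_sub_max_le_abs _ _ 0).trans ?_
  simp only [min_comm (1 : ℝ)]
  refine (abs_min_sub_min_le_max _ _ _ _).trans ?_
  rw [sub_self, abs_zero, max_eq_left (abs_nonneg _),
    show 2 - 2 * dist y x / r - (2 - 2 * dist z x / r) = 2 / r * (dist z x - dist y x) by ring,
    abs_mul, abs_of_pos (by positivity : 0 < 2 / r), dist_comm y z]
  exact mul_le_mul_of_nonneg_left (abs_dist_sub_le z y x) (by positivity)

lemma continuous_bump (x : Sp d) (r : ℝ) : Continuous (bump x r) := by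
  unfold bump; fun_prop

variable {μ : Measure (Sp d)} [IsLocallyFiniteMeasure μ] {C₀ : ℝ}

lemma integrable_bump (x : Sp d) {r : ℝ} (hr : 0 < r) : Integrable (bump x r) μ := by
  refine (continuous_bump x r).integrable_of_hasCompactSupport
    (HasCompactSupport.intro (isCompact_closedBall x r) fun y hy => bump_zero hr ?_)
  rw [mem_closedBall, not_le] at hy
  exact hy.le

lemma mass_lower (hμ : Reg n C₀ μ) {x : Sp d} (hx : x ∈ μ.support) {r : ℝ} (hr : 0 < r)
    (hd : ENNReal.ofReal r ≤ Metric.ediam μ.support) :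
    C₀⁻¹ * (r / 2) ^ n ≤ ∫ y, bump x r y ∂μ := by
  refine (hμ.lower x hx (r / 2) (half_pos hr)
    ((ENNReal.ofReal_le_ofReal (by linarith)).trans hd)).trans ?_
  calc μ.real (ball x (r / 2)) = ∫ y in ball x (r / 2), bump x r y ∂μ := by
        rw [setIntegral_congr_fun measurableSet_ball (g := fun _ => (1 : ℝ))
          fun y hy => bump_one hr (mem_ball.1 hy).le]
        simp
    _ ≤ _ := setIntegral_le_integral (integrable_bump x hr)
        (Eventually.of_forall (bump_nonneg x r))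

/-- The bump of unit mass in direction `e`. -/
noncomputable def fld (μ : Measure (Sp d)) (x : Sp d) (r : ℝ) (e : Sp d) (y : Sp d) : Sp d :=
  (bump x r y / ∫ z, bump x r z ∂μ) • e

section Field

variable (hμ : Reg n C₀ μ) {x : Sp d} (hx : x ∈ μ.support) {r : ℝ} (hr : 0 < r)
  (hd : ENNReal.ofReal r ≤ Metric.ediam μ.support) {e : Sp d} (he : ‖e‖ = 1)

include hμ hx hr hd in
lemma mass_pos : 0 < ∫ y, bump x r y ∂μ :=
  lt_of_lt_of_le (by have := hμ.one_le; positivity) (mass_lower hμ hx hr hd)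

include hμ hx hr hd in
lemma mass_inv : (∫ y, bump x r y ∂μ)⁻¹ ≤ C₀ * 2 ^ n / r ^ n := by
  have := hμ.one_le
  refine (inv_anti₀ (by positivity) (mass_lower hμ hx hr hd)).trans (le_of_eq ?_)
  rw [div_pow]
  field_simp

include hμ hx hr hd he in
lemma norm_fld_le (y : Sp d) : ‖fld μ x r e y‖ ≤ C₀ * 2 ^ n / r ^ n := by
  rw [fld, norm_smul, he, mul_one, Real.norm_eq_abs,
    abs_of_nonneg (div_nonneg (bump_nonneg x r y) (mass_pos hμ hx hr hd).le), div_eq_mul_inv]
  exact (mul_le_of_le_one_left (inv_nonneg.2 (mass_pos hμ hx hr hd).le)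
    (bump_le_one x r y)).trans (mass_inv hμ hx hr hd)

include hμ hx hr hd he in
lemma norm_fld_sub_le (y z : Sp d) :
    ‖fld μ x r e y - fld μ x r e z‖ ≤ 2 / r * (C₀ * 2 ^ n / r ^ n) * dist y z := by
  rw [fld, fld, ← sub_smul, norm_smul, he, mul_one, Real.norm_eq_abs, ← sub_div, abs_div,
    abs_of_pos (mass_pos hμ hx hr hd), div_eq_mul_inv]
  refine (mul_le_mul (abs_bump_sub hr y z) (mass_inv hμ hx hr hd)
    (inv_nonneg.2 (mass_pos hμ hx hr hd).le) (by positivity)).trans (le_of_eq ?_)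
  ring

include hμ hx hr hd he in
lemma lipschitz_fld :
    LipschitzWith (Real.toNNReal (2 / r * (C₀ * 2 ^ n / r ^ n))) (fld μ x r e) :=
  LipschitzWith.of_dist_le_mul fun y z => by
    have := hμ.one_le
    rw [dist_eq_norm, Real.coe_toNNReal _ (by positivity)]
    exact norm_fld_sub_le hμ hx hr hd he y z

omit [IsLocallyFiniteMeasure μ] in
include hr in
lemma fld_zero {y : Sp d} (h : r ≤ dist y x) : fld μ x r e y = 0 := by
  simp [fld, bump_zero hr h]

include hμ hx hr hd in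
lemma integral_fld : ∫ y, fld μ x r e y ∂μ = e := by
  unfold fld
  rw [integral_smul_const, integral_div, div_self (mass_pos hμ hx hr hd).ne', one_smul]

include hμ hx hr hd he in
lemma integral_norm_fld : ∫ y, ‖fld μ x r e y‖ ∂μ = 1 := by
  have h : (fun y => ‖fld μ x r e y‖) = fun y => bump x r y / ∫ z, bump x r z ∂μ := by
    funext y
    rw [fld, norm_smul, he, mul_one, Real.norm_eq_abs,
      abs_of_nonneg (div_nonneg (bump_nonneg x r y) (mass_pos hμ hx hr hd).le)]
  rw [h, integral_div, div_self (mass_pos hμ hx hr hd).ne']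

end Field

/-! ### Linearity of the pairing -/

omit [IsLocallyFiniteMeasure μ] in
lemma pair_smul (p : Sp d) (R c : ℝ) (φ : Sp d → Sp d) :
    pair n μ p R (fun y => c • φ y) = c * pair n μ p R φ := by
  simp only [pair, ← smul_sub, real_inner_smul_left, integral_const_mul]
  ring

lemma pair_sub (hμ : Reg n C₀ μ) {G : ℝ} (hG : ∀ (x : Sp d) (R : ℝ), 0 < R →
      IntegrableOn (fun z => ‖x - z‖ / ‖x - z‖ ^ n) (ball x R) μ ∧
        ∫ z in ball x R, ‖x - z‖ / ‖x - z‖ ^ n ∂μ ≤ G * R)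
    (hG' : ∀ (x : Sp d) (R : ℝ), 0 < R →
      IntegrableOn (fun z => (‖x - z‖ ^ (n + 1))⁻¹) (ball x R)ᶜ μ ∧
        ∫ z in (ball x R)ᶜ, (‖x - z‖ ^ (n + 1))⁻¹ ∂μ ≤ G / R)
    {p : Sp d} {R : ℝ} (hR : 0 < R) {φ ψ : Sp d → Sp d} {L L' : ℝ≥0}
    (hφ : LipschitzWith L φ) (hψ : LipschitzWith L' ψ)
    (hsφ : ∀ y, R ≤ dist y p → φ y = 0) (hsψ : ∀ y, R ≤ dist y p → ψ y = 0) :
    pair n μ p R (fun y => φ y - ψ y) = pair n μ p R φ - pair n μ p R ψ := by
  set B := ball p (2 * R) with hB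
  have hsec : ∀ {L : ℝ≥0} {f : Sp d → Sp d}, LipschitzWith L f →
      ∀ y ∈ B, IntegrableOn (fun z => H n f (y, z)) B μ := by
    intro L f hf y hy
    have hsub : B ⊆ ball y (4 * R) :=
      ball_subset_ball' (by rw [dist_comm]; rw [hB, mem_ball] at hy; linarith)
    exact Integrable.mono' (((hG y (4 * R) (by positivity)).1.mono_set hsub).const_mul (L : ℝ))
      ((measurable_H hf.continuous).comp (by fun_prop)).aestronglyMeasurable
      (Eventually.of_forall fun z => abs_H_le hf y z)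
  have hout : ∀ {L : ℝ≥0} {f : Sp d → Sp d}, LipschitzWith L f →
      IntegrableOn (fun y => ∫ z in B, H n f (y, z) ∂μ) B μ := by
    intro L f hf
    have h := (near_ball hμ hG hf p (show (0:ℝ) < 2 * R by positivity)).1
    rw [IntegrableOn, ← Measure.prod_restrict] at h
    exact h.integral_prod_left
  have hl : loc n μ B (fun y => φ y - ψ y) = loc n μ B φ - loc n μ B ψ := by
    rw [loc, loc, loc, ← integral_sub (hout hφ) (hout hψ)]
    refine setIntegral_congr_fun measurableSet_ball fun y hy => ?_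
    rw [← integral_sub (hsec hφ y hy) (hsec hψ y hy)]
    refine setIntegral_congr_fun measurableSet_ball fun z _ => ?_
    simp only [H]
    rw [← inner_sub_left]
    congr 1
    abel
  obtain ⟨-, hiφ, -⟩ := abs_far_le hμ hG' measurableSet_ball hR le_rfl
    (subset_refl (ball p (2 * R))) hφ.continuous hsφ
  obtain ⟨-, hiψ, -⟩ := abs_far_le hμ hG' measurableSet_ball hR le_rfl
    (subset_refl (ball p (2 * R))) hψ.continuous hsψ
  have hf : far n μ B p (fun y => φ y - ψ y) = far n μ B p φ - far n μ B p ψ := by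
    rw [far, far, far, ← integral_sub hiφ hiψ]
    refine setIntegral_congr_fun measurableSet_ball fun y hy => ?_
    by_cases h : dist y p < R
    · have hi := (far_point hG' (measurableSet_ball (x := p) (ε := 2 * R)) hR le_rfl
        subset_rfl h).1
      rw [← integral_sub (hi.const_inner _) (hi.const_inner _)]
      simp only [inner_sub_left]
      rfl
    · simp [hsφ y (not_lt.1 h), hsψ y (not_lt.1 h)]
  rw [pair_eq, pair_eq, pair_eq, ← hB, hl, hf]
  ring

/-- The local part of a field supported in the inner ball. -/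
lemma loc_split (hμ : Reg n C₀ μ) {G : ℝ} (hG : ∀ (x : Sp d) (R : ℝ), 0 < R →
      IntegrableOn (fun z => ‖x - z‖ / ‖x - z‖ ^ n) (ball x R) μ ∧
        ∫ z in ball x R, ‖x - z‖ / ‖x - z‖ ^ n ∂μ ≤ G * R)
    {x : Sp d} {s t : ℝ} (hs : 0 < s) (hst : s ≤ t) {L : ℝ≥0} {φ : Sp d → Sp d}
    (hφ : LipschitzWith L φ) (hsupp : ∀ y, y ∉ ball x s → φ y = 0) :
    loc n μ (ball x t) φ = loc n μ (ball x s) φ +
        2 * ∫ y in ball x s, ∫ z in ball x t \ ball x s, H n φ (y, z) ∂μ ∂μ ∧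
      IntegrableOn (fun y => ∫ z in ball x t \ ball x s, H n φ (y, z) ∂μ) (ball x s) μ ∧
      ∀ y ∈ ball x t, IntegrableOn (fun z => H n φ (y, z)) (ball x t \ ball x s) μ := by
  set B := ball x s with hBdef
  set B' := ball x t with hB'def
  have ht : 0 < t := hs.trans_le hst
  have hsub : B ⊆ B' := ball_subset_ball hst
  have mB : MeasurableSet B := measurableSet_ball
  have mB' : MeasurableSet B' := measurableSet_ball
  set S := B' \ B with hS
  have mS : MeasurableSet S := mB'.diff mB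
  have hSB : Disjoint B S := disjoint_sdiff_right
  have hU : B ∪ S = B' := union_sdiff_cancel hsub
  have hI := (near_ball hμ hG hφ x ht).1
  have hsec : ∀ y ∈ B', IntegrableOn (fun z => H n φ (y, z)) B' μ := by
    intro y hy
    have hsub : B' ⊆ ball y (2 * t) :=
      ball_subset_ball' (by rw [dist_comm]; rw [hB'def, mem_ball] at hy; linarith)
    exact Integrable.mono' (((hG y (2 * t) (by positivity)).1.mono_set hsub).const_mul (L : ℝ))
      ((measurable_H hφ.continuous).comp (by fun_prop)).aestronglyMeasurable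
      (Eventually.of_forall fun z => abs_H_le hφ y z)
  have hII : ∀ a b : Set (Sp d), a ⊆ B' → b ⊆ B' →
      IntegrableOn (fun y => ∫ z in b, H n φ (y, z) ∂μ) a μ := by
    intro a b ha hb
    have h : IntegrableOn (H n φ) (a ×ˢ b) (μ.prod μ) := hI.mono_set (prod_mono ha hb)
    rw [IntegrableOn, ← Measure.prod_restrict] at h
    exact h.integral_prod_left
  have hsplit : ∀ y ∈ B', ∫ z in B', H n φ (y, z) ∂μ =
      (∫ z in B, H n φ (y, z) ∂μ) + ∫ z in S, H n φ (y, z) ∂μ := by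
    intro y hy
    rw [← setIntegral_union hSB mS ((hsec y hy).mono_set hsub) ((hsec y hy).mono_set sdiff_subset),
      hU]
  have h0 : ∫ y in S, ∫ z in S, H n φ (y, z) ∂μ ∂μ = 0 := by
    refine setIntegral_eq_zero_of_forall_eq_zero fun y hy => ?_
    refine setIntegral_eq_zero_of_forall_eq_zero fun z hz => ?_
    simp [H, hsupp y hy.2, hsupp z hz.2]
  have hswap : ∫ y in S, ∫ z in B, H n φ (y, z) ∂μ ∂μ =
      ∫ y in B, ∫ z in S, H n φ (y, z) ∂μ ∂μ := by
    have : IsFiniteMeasure (μ.restrict B) := isFiniteMeasure_restrict.2 (hμ.fin x s)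
    have h : IntegrableOn (H n φ) (S ×ˢ B) (μ.prod μ) :=
      hI.mono_set (prod_mono sdiff_subset hsub)
    rw [IntegrableOn, ← Measure.prod_restrict] at h
    rw [integral_integral_swap (f := fun y z => H n φ (y, z)) h]
    simp_rw [fun y z => H_symm (n := n) φ z y]
  refine ⟨?_, hII B S hsub sdiff_subset, fun y hy => (hsec y hy).mono_set sdiff_subset⟩
  rw [loc, setIntegral_congr_fun mB' hsplit,
    integral_add (hII B' B subset_rfl hsub) (hII B' S subset_rfl sdiff_subset)]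
  nth_rw 1 [← hU]
  rw [setIntegral_union hSB mS (hII B B hsub hsub) (hII S B sdiff_subset hsub)]
  nth_rw 1 [← hU]
  rw [setIntegral_union hSB mS (hII B S hsub sdiff_subset)
    (hII S S sdiff_subset sdiff_subset), h0, hswap, loc]
  ring

/-! ### The two bounds on the pairing with a bump -/

/-- The gap of a hole at its touching point. -/
noncomputable def gap (x e : Sp d) (ρ : ℝ) (y : Sp d) : ℝ := ‖y - x‖ ^ 2 / (2 * ρ) - ⟪e, y - x⟫

omit [IsLocallyFiniteMeasure μ] in
lemma gap_nonneg {z x : Sp d} {ρ : ℝ} (hρ : 0 < ρ) (hzx : dist z x = ρ)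
    (hdis : Disjoint (ball z ρ) μ.support) {y : Sp d} (hy : y ∈ μ.support) :
    0 ≤ gap x (ρ⁻¹ • (z - x)) ρ y := by
  have h1 : ρ ≤ ‖(y - x) - (z - x)‖ := by
    rw [sub_sub_sub_cancel_right, ← dist_eq_norm]
    exact not_lt.1 fun h => Set.disjoint_left.1 hdis (mem_ball.2 h) hy
  have h2 := pow_le_pow_left₀ hρ.le h1 2
  rw [norm_sub_sq_real, ← dist_eq_norm z x, hzx] at h2
  rw [gap, real_inner_smul_left, real_inner_comm (y - x) (z - x), sub_nonneg,
    le_div_iff₀ (by positivity)]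
  have : ρ⁻¹ * ⟪y - x, z - x⟫ * (2 * ρ) = 2 * ⟪y - x, z - x⟫ := by field_simp
  linarith

omit [IsLocallyFiniteMeasure μ] in
lemma abs_gap_le {x e : Sp d} {ρ : ℝ} (hρ : 0 < ρ) (he : ‖e‖ = 1) {y : Sp d} {t : ℝ}
    (h : ‖y - x‖ ≤ t) : |gap x e ρ y| ≤ t ^ 2 / (2 * ρ) + t := by
  refine (abs_sub _ _).trans (add_le_add ?_ ((abs_real_inner_le_norm _ _).trans ?_))
  · rw [abs_of_nonneg (by positivity)]
    gcongr
  · rwa [he, one_mul]

variable {G : ℝ} (hμ : Reg n C₀ μ)
  (hG : ∀ (x : Sp d) (R : ℝ), 0 < R →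
      IntegrableOn (fun z => ‖x - z‖ / ‖x - z‖ ^ n) (ball x R) μ ∧
        ∫ z in ball x R, ‖x - z‖ / ‖x - z‖ ^ n ∂μ ≤ G * R)
  (hG' : ∀ (x : Sp d) (R : ℝ), 0 < R →
      IntegrableOn (fun z => (‖x - z‖ ^ (n + 1))⁻¹) (ball x R)ᶜ μ ∧
        ∫ z in (ball x R)ᶜ, (‖x - z‖ ^ (n + 1))⁻¹ ∂μ ≤ G / R)
  {x e : Sp d} (hx : x ∈ μ.support) (he : ‖e‖ = 1) {r : ℝ} (hr : 0 < r)
  (hd : ENNReal.ofReal r ≤ Metric.ediam μ.support)

include hμ hG hx he hr hd in
lemma abs_loc_fld :
    |loc n μ (ball x (2 * r)) (fld μ x r e)| ≤ 8 * G * C₀ ^ 2 * 4 ^ n := by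
  have h1 := hμ.one_le
  have hG0 : 0 ≤ G := by
    have h := (hG x 1 one_pos).2
    rw [mul_one] at h
    exact le_trans (integral_nonneg fun z => by positivity) h
  refine (near_ball hμ hG (lipschitz_fld hμ hx hr hd he) x (by positivity)).2.trans ?_
  rw [Real.coe_toNNReal _ (by positivity)]
  refine (mul_le_mul_of_nonneg_left (hμ.upper x (2 * r) (by positivity)) (by positivity)).trans
    (le_of_eq ?_)
  rw [mul_pow, show (4 : ℝ) ^ n = 2 ^ n * 2 ^ n by rw [← mul_pow]; norm_num]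
  field_simp
  ring

include hμ hG' hx he hr hd in
lemma abs_far_fld {ρ : ℝ} (hrρ : r ≤ ρ) :
    |far n μ (ball x (2 * ρ)) x (fld μ x r e)| ≤ kLip n * G * 2⁻¹ := by
  have hρ : 0 < ρ := hr.trans_le hrρ
  refine (abs_far_le hμ hG' measurableSet_ball hρ le_rfl subset_rfl
    (lipschitz_fld hμ hx hr hd he).continuous fun y hy => fld_zero hr (hrρ.trans hy)).2.2.trans
    (le_of_eq ?_)
  rw [integral_norm_fld hμ hx hr hd he]
  field_simp

omit [IsLocallyFiniteMeasure μ] in
include he hr in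
/-- The kernel against the direction of the bump, away from it. -/
lemma kernel_lower {ρ : ℝ} (hρ : 0 < ρ) {y z : Sp d} (hy : ‖y - x‖ < r) (hrρ : r ≤ ρ)
    (hz : 2 * r ≤ ‖z - x‖) (hgz : 0 ≤ gap x e ρ z) :
    gap x e ρ z / ‖x - z‖ ^ (n + 1) / 2 ^ (n + 1) -
        2 ^ (n + 1) * (2 * r * (‖x - z‖ ^ (n + 1))⁻¹ +
          (2 * ρ)⁻¹ * (‖x - z‖ / ‖x - z‖ ^ n)) ≤
      ⟪e, rieszKernel n (y - z)⟫ := by
  rw [norm_sub_rev x z]
  set w := ‖z - x‖ with hw
  have hw0 : 0 < w := by linarith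
  have hlo : w / 2 ≤ ‖y - z‖ := by
    have := norm_sub_norm_le (z - x) (y - x)
    rw [sub_sub_sub_cancel_right, norm_sub_rev z y, ← hw] at this
    linarith
  have hhi : ‖y - z‖ ≤ 2 * w := by
    have := norm_sub_le (y - x) (z - x)
    rw [sub_sub_sub_cancel_right, ← hw] at this
    linarith
  have hk : 0 < ‖y - z‖ := by linarith
  set a := (‖y - z‖ ^ (n + 1))⁻¹ with ha
  have ha1 : (w ^ (n + 1))⁻¹ / 2 ^ (n + 1) ≤ a := by
    rw [ha, div_eq_mul_inv, ← mul_inv]
    refine inv_anti₀ (by positivity) ?_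
    rw [← mul_pow, mul_comm w]
    exact pow_le_pow_left₀ hk.le hhi _
  have ha2 : a ≤ 2 ^ (n + 1) * (w ^ (n + 1))⁻¹ := by
    refine (inv_anti₀ (by positivity) (pow_le_pow_left₀ (by positivity) hlo (n + 1))).trans
      (le_of_eq ?_)
    rw [div_pow, inv_div, div_eq_mul_inv]
  have e1 : ⟪e, rieszKernel n (y - z)⟫ = a * (gap x e ρ z -
      (gap x e ρ y + w ^ 2 / (2 * ρ) - ‖y - x‖ ^ 2 / (2 * ρ))) := by
    rw [rieszKernel, real_inner_smul_right, show y - z = (y - x) - (z - x) by abel,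
      inner_sub_right, gap, gap, ha, ← hw, sub_sub_sub_cancel_right]
    ring
  rw [e1]
  have hy2 : gap x e ρ y ≤ 2 * r := by
    refine (le_abs_self _).trans ((abs_gap_le hρ he hy.le).trans ?_)
    have : r ^ 2 / (2 * ρ) ≤ r := by
      rw [div_le_iff₀ (by positivity)]; nlinarith
    linarith
  have hq : w ^ 2 / (2 * ρ) * (w ^ (n + 1))⁻¹ = (2 * ρ)⁻¹ * (w / w ^ n) := by
    field_simp
    ring
  have hb : a * (gap x e ρ y + w ^ 2 / (2 * ρ) - ‖y - x‖ ^ 2 / (2 * ρ)) ≤
      2 ^ (n + 1) * (2 * r * (w ^ (n + 1))⁻¹ + (2 * ρ)⁻¹ * (w / w ^ n)) := by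
    calc a * (gap x e ρ y + w ^ 2 / (2 * ρ) - ‖y - x‖ ^ 2 / (2 * ρ))
        ≤ a * (2 * r + w ^ 2 / (2 * ρ)) := by
          refine mul_le_mul_of_nonneg_left ?_ (by positivity)
          linarith [show 0 ≤ ‖y - x‖ ^ 2 / (2 * ρ) by positivity]
      _ ≤ 2 ^ (n + 1) * (w ^ (n + 1))⁻¹ * (2 * r + w ^ 2 / (2 * ρ)) :=
          mul_le_mul_of_nonneg_right ha2 (by positivity)
      _ = _ := by rw [← hq]; ring
  have hl : gap x e ρ z / w ^ (n + 1) / 2 ^ (n + 1) ≤ a * gap x e ρ z := by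
    rw [div_eq_mul_inv (gap x e ρ z), mul_div_assoc, mul_comm a]
    exact mul_le_mul_of_nonneg_left ha1 hgz
  rw [mul_sub]
  linarith

include hμ hG hG' hx he hr hd in
/-- The pairing with a small bump dominates the logarithmic integral of the gap. -/
lemma pair_fld_lower {ρ : ℝ} (hrρ : r ≤ ρ) (hg : ∀ y ∈ μ.support, 0 ≤ gap x e ρ y) :
    (∫ z in ball x (2 * ρ) \ ball x (2 * r), gap x e ρ z / ‖x - z‖ ^ (n + 1) ∂μ) / 2 ^ (n + 1) -
        (2 ^ (n + 2) * G + 4 * G * C₀ ^ 2 * 4 ^ n + kLip n * G * 2⁻¹) ≤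
      pair n μ x ρ (fld μ x r e) := by
  have hρ : 0 < ρ := hr.trans_le hrρ
  have hLip := lipschitz_fld hμ hx hr hd he
  set a : Sp d → ℝ := fun y => bump x r y / ∫ z, bump x r z ∂μ with ha
  set S := ball x (2 * ρ) \ ball x (2 * r) with hS
  have hSm : MeasurableSet S := measurableSet_ball.diff measurableSet_ball
  have hsupp : ∀ y, y ∉ ball x (2 * r) → fld μ x r e y = 0 := fun y hy =>
    fld_zero hr (by rw [mem_ball, not_lt] at hy; linarith)
  obtain ⟨hsplit, hI, hsec⟩ := loc_split hμ hG (by positivity : (0:ℝ) < 2 * r)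
    (by linarith : 2 * r ≤ 2 * ρ) hLip hsupp
  set u : Sp d → ℝ := fun z => gap x e ρ z / ‖x - z‖ ^ (n + 1) with hu
  set v : Sp d → ℝ := fun z => 2 ^ (n + 1) * (2 * r * (‖x - z‖ ^ (n + 1))⁻¹ +
    (2 * ρ)⁻¹ * (‖x - z‖ / ‖x - z‖ ^ n)) with hv
  have : IsFiniteMeasure (μ.restrict S) := isFiniteMeasure_restrict.2
    (ne_top_of_le_ne_top (hμ.fin x (2 * ρ)) (measure_mono sdiff_subset))
  have iu : IntegrableOn u S μ := by
    refine Integrable.of_bound (by unfold u gap; fun_prop : Measurable u).aestronglyMeasurable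
      (((2 * ρ) ^ 2 / (2 * ρ) + 2 * ρ) / (2 * r) ^ (n + 1))
      ((ae_restrict_iff' hSm).2 (Eventually.of_forall fun z hz => ?_))
    have h1 := hz.1
    have h2 := hz.2
    rw [mem_ball, dist_eq_norm] at h1
    rw [mem_ball, not_lt, dist_eq_norm, norm_sub_rev] at h2
    simp only [u, Real.norm_eq_abs, abs_div]
    rw [abs_of_nonneg (by positivity : (0:ℝ) ≤ ‖x - z‖ ^ (n + 1))]
    exact div_le_div₀ (by positivity) (abs_gap_le hρ he h1.le) (by positivity)
      (pow_le_pow_left₀ (by positivity) h2 _)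
  obtain ⟨j1, k1⟩ := hG' x (2 * r) (by positivity)
  obtain ⟨j2, k2⟩ := hG x (2 * ρ) (by positivity)
  have hS1 : S ⊆ (ball x (2 * r))ᶜ := fun z hz => hz.2
  have hS2 : S ⊆ ball x (2 * ρ) := sdiff_subset
  have iv1 := (j1.mono_set hS1).const_mul (2 * r)
  have iv2 := (j2.mono_set hS2).const_mul (2 * ρ)⁻¹
  have iv : IntegrableOn v S μ := (iv1.add iv2).const_mul _
  have bv : ∫ z in S, v z ∂μ ≤ 2 ^ (n + 2) * G := by
    simp only [v]
    rw [integral_const_mul, integral_add iv1 iv2, integral_const_mul, integral_const_mul]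
    have b1 : ∫ z in S, (‖x - z‖ ^ (n + 1))⁻¹ ∂μ ≤ G / (2 * r) :=
      (setIntegral_mono_set j1 (Eventually.of_forall fun z => by positivity)
        hS1.eventuallyLE).trans k1
    have b2 : ∫ z in S, ‖x - z‖ / ‖x - z‖ ^ n ∂μ ≤ G * (2 * ρ) :=
      (setIntegral_mono_set j2 (Eventually.of_forall fun z => by positivity)
        hS2.eventuallyLE).trans k2
    calc 2 ^ (n + 1) * (2 * r * ∫ z in S, (‖x - z‖ ^ (n + 1))⁻¹ ∂μ +
          (2 * ρ)⁻¹ * ∫ z in S, ‖x - z‖ / ‖x - z‖ ^ n ∂μ)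
        ≤ 2 ^ (n + 1) * (2 * r * (G / (2 * r)) + (2 * ρ)⁻¹ * (G * (2 * ρ))) := by gcongr
      _ = _ := by rw [pow_succ _ (n + 1)]; field_simp; ring
  set P := ∫ z in S, u z ∂μ with hP
  set Q := P / 2 ^ (n + 1) - 2 ^ (n + 2) * G with hQ
  have key : ∀ y ∈ ball x (2 * r), a y * Q ≤ ∫ z in S, H n (fld μ x r e) (y, z) ∂μ := by
    intro y hy
    have ha0 : 0 ≤ a y := div_nonneg (bump_nonneg x r y) (mass_pos hμ hx hr hd).le
    have e1 : ∀ z ∈ S, H n (fld μ x r e) (y, z) = a y * ⟪e, rieszKernel n (y - z)⟫ := fun z hz => by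
      simp only [H, hsupp z hz.2, sub_zero]
      rw [fld, real_inner_smul_left]
    by_cases h : dist y x < r
    · have hQ' : a y * Q ≤ ∫ z in S, a y * (u z / 2 ^ (n + 1) - v z) ∂μ := by
        rw [integral_const_mul, integral_sub (iu.div_const _) iv, integral_div]
        exact mul_le_mul_of_nonneg_left (by simp only [Q, P]; linarith) ha0
      refine hQ'.trans (integral_mono_ae ((iu.div_const _).sub iv |>.const_mul _)
        (hsec y (ball_subset_ball (by linarith) hy)) ?_)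
      filter_upwards [ae_restrict_mem hSm,
        ae_restrict_of_ae (Measure.support_mem_ae (μ := μ))] with z hz hzs
      rw [e1 z hz]
      refine mul_le_mul_of_nonneg_left ?_ ha0
      refine kernel_lower he hr hρ (by rwa [← dist_eq_norm]) hrρ ?_ (hg z hzs)
      have h2 := hz.2
      rwa [mem_ball, not_lt, dist_eq_norm] at h2
    · have h0 : a y = 0 := by simp [ha, bump_zero hr (not_lt.1 h)]
      rw [h0, zero_mul, setIntegral_congr_fun hSm (g := fun _ => (0 : ℝ))
        fun z hz => by rw [e1 z hz, h0, zero_mul]]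
      simp
  have haI : ∫ y in ball x (2 * r), a y ∂μ = 1 := by
    rw [setIntegral_eq_integral_of_forall_compl_eq_zero fun y hy => ?_, integral_div,
      div_self (mass_pos hμ hx hr hd).ne']
    rw [mem_ball, not_lt] at hy
    simp [ha, bump_zero hr (show r ≤ dist y x by linarith)]
  have hcross : Q ≤ ∫ y in ball x (2 * r), ∫ z in S, H n (fld μ x r e) (y, z) ∂μ ∂μ := by
    refine le_trans (le_of_eq ?_) (setIntegral_mono_on
      (((integrable_bump x hr).div_const _).integrableOn.mul_const Q) hI measurableSet_ball key)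
    rw [integral_mul_const, haI, one_mul]
  have h1 := abs_le.1 (abs_loc_fld hμ hG hx he hr hd)
  have h2 := abs_le.1 (abs_far_fld hμ hG' hx he hr hd hrρ)
  rw [pair_eq, hsplit]
  change P / 2 ^ (n + 1) - _ ≤ _
  simp only [Q] at hcross
  linarith [h1.1, h2.1]

include hμ hG hG' hx he hr hd in
/-- The pairing with the largest bump. -/
lemma abs_pair_fld : |pair n μ x r (fld μ x r e)| ≤
    4 * G * C₀ ^ 2 * 4 ^ n + kLip n * G * 2⁻¹ := by
  rw [pair_eq]
  refine (abs_add_le _ _).trans (add_le_add ?_ (abs_far_fld hμ hG' hx he hr hd le_rfl))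
  rw [abs_mul, abs_inv, abs_two]
  linarith [abs_loc_fld hμ hG hx he hr hd]

/-- The change of the pairing from one scale to the next is at most the test. -/
lemma step_le (hμ : Reg n C₀ μ) (hP : PairSpec n d) {G : ℝ} (hG : ∀ (x : Sp d) (R : ℝ), 0 < R →
      IntegrableOn (fun z => ‖x - z‖ / ‖x - z‖ ^ n) (ball x R) μ ∧
        ∫ z in ball x R, ‖x - z‖ / ‖x - z‖ ^ n ∂μ ≤ G * R)
    (hG' : ∀ (x : Sp d) (R : ℝ), 0 < R →
      IntegrableOn (fun z => (‖x - z‖ ^ (n + 1))⁻¹) (ball x R)ᶜ μ ∧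
        ∫ z in (ball x R)ᶜ, (‖x - z‖ ^ (n + 1))⁻¹ ∂μ ≤ G / R)
    {x e : Sp d} (hx : x ∈ μ.support) (he : ‖e‖ = 1) {r ρ : ℝ} (hr : 0 < r) (hrρ : r ≤ ρ)
    (hd : ENNReal.ofReal r ≤ Metric.ediam μ.support) :
    |pair n μ x ρ (fld μ x (r / 8) e) - pair n μ x ρ (fld μ x r e)| ≤
      16 * C₀ * 16 ^ n * bT n μ 1 x r := by
  have h1 := hμ.one_le
  have hC : 0 < C₀ := one_pos.trans_le h1
  have hρ : 0 < ρ := hr.trans_le hrρ
  have hr' : 0 < r / 8 := by positivity
  have hd' : ENNReal.ofReal (r / 8) ≤ Metric.ediam μ.support :=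
    (ENNReal.ofReal_le_ofReal (by linarith)).trans hd
  have hL1 := lipschitz_fld hμ hx hr' hd' he
  have hL2 := lipschitz_fld hμ hx hr hd he
  rw [← pair_sub hμ hG hG' hρ hL1 hL2 (fun y hy => fld_zero hr' (by linarith))
    (fun y hy => fld_zero hr (hrρ.trans hy))]
  set φ := fun y => fld μ x (r / 8) e y - fld μ x r e y with hφ
  set c := r ^ n / (16 * C₀ * 16 ^ n) with hc
  have hc0 : 0 < c := by positivity
  have hsupp : ∀ y, r ≤ dist y x → c • φ y = 0 := fun y hy => by
    simp [φ, fld_zero hr' (show r / 8 ≤ dist y x by linarith), fld_zero hr hy]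
  have e1 : C₀ * 2 ^ n / (r / 8) ^ n * c = 1 / 16 := by
    rw [hc, div_pow, show (16 : ℝ) ^ n = 2 ^ n * 8 ^ n by rw [← mul_pow]; norm_num]
    field_simp
  have e2 : C₀ * 2 ^ n / r ^ n * c ≤ 1 / 16 := by
    rw [← e1]
    gcongr
    linarith
  have hnorm : ∀ y, ‖c • φ y‖ ≤ 1 := fun y => by
    rw [norm_smul, Real.norm_eq_abs, abs_of_pos hc0, mul_comm]
    refine (mul_le_mul_of_nonneg_right ((norm_sub_le _ _).trans (add_le_add
      (norm_fld_le hμ hx hr' hd' he y) (norm_fld_le hμ hx hr hd he y))) hc0.le).trans ?_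
    rw [add_mul]
    linarith
  have hlip : LipschitzWith (Real.toNNReal (((1 : ℕ) + 1) / r)) fun y => c • φ y := by
    refine LipschitzWith.of_dist_le_mul fun y z => ?_
    rw [Real.coe_toNNReal _ (by positivity), dist_eq_norm, ← smul_sub, norm_smul,
      Real.norm_eq_abs, abs_of_pos hc0, mul_comm]
    have e3 : φ y - φ z = (fld μ x (r / 8) e y - fld μ x (r / 8) e z) -
        (fld μ x r e y - fld μ x r e z) := by simp only [φ]; abel
    rw [e3]
    refine (mul_le_mul_of_nonneg_right ((norm_sub_le _ _).trans (add_le_add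
      (norm_fld_sub_le hμ hx hr' hd' he y z) (norm_fld_sub_le hμ hx hr hd he y z))) hc0.le).trans ?_
    calc (2 / (r / 8) * (C₀ * 2 ^ n / (r / 8) ^ n) * dist y z +
          2 / r * (C₀ * 2 ^ n / r ^ n) * dist y z) * c
        = (2 / (r / 8) * (C₀ * 2 ^ n / (r / 8) ^ n * c) +
          2 / r * (C₀ * 2 ^ n / r ^ n * c)) * dist y z := by ring
      _ ≤ (2 / (r / 8) * (1 / 16) + 2 / r * (1 / 16)) * dist y z := by rw [e1]; gcongr
      _ ≤ _ := by
          refine mul_le_mul_of_nonneg_right ?_ dist_nonneg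
          push_cast
          rw [show 2 / (r / 8) * (1 / 16) + 2 / r * (1 / 16) = (9 / 8) / r by field_simp; ring]
          gcongr
          norm_num
  have hmean : ∫ y, c • φ y ∂μ = 0 := by
    rw [integral_smul, integral_sub (integrable_field hμ hL1.continuous
      fun y hy => fld_zero hr' hy).1
      (integrable_field hμ hL2.continuous fun y hy => fld_zero hr hy).1,
      integral_fld hμ hx hr' hd', integral_fld hμ hx hr hd, sub_self, smul_zero]
  obtain ⟨⟨C, hC', hbound⟩, hind, -⟩ := hP μ C₀ hμ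
  have htest : IsTest μ 1 x r fun y => c • φ y :=
    ⟨fun y hy => hsupp y (by push_cast at hy; linarith), hnorm, hlip, hmean⟩
  have hbdd : BddAbove {t | ∃ ψ, IsTest μ 1 x r ψ ∧
      t = |pair n μ x (((1 : ℕ) + 1) * r) ψ| / r ^ n} := by
    refine ⟨C * (5 * 2 ^ n), ?_⟩
    rintro t ⟨ψ, ⟨h1, h2, h3, h4⟩, rfl⟩
    rw [div_le_iff₀ (by positivity)]
    refine (hbound x hx _ 1 _ ψ (by positivity) h1 h2 h3 h4).trans (le_of_eq ?_)
    rw [Real.coe_toNNReal _ (by positivity)]
    push_cast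
    rw [mul_pow]
    field_simp
    ring
  have hb : |pair n μ x (((1 : ℕ) + 1) * r) fun y => c • φ y| / r ^ n ≤ bT n μ 1 x r :=
    le_csSup hbdd ⟨_, htest, rfl⟩
  rw [← hind x x ρ (((1 : ℕ) + 1) * r) _ _ hρ (by positivity) (fun y hy => hsupp y (hrρ.trans hy))
    (fun y hy => hsupp y (by push_cast at hy; linarith)) hlip hmean, pair_smul, abs_mul,
    abs_of_pos hc0, div_le_iff₀ (by positivity), hc] at hb
  rw [div_mul_eq_mul_div, div_le_iff₀ (by positivity)] at hb
  refine le_of_mul_le_mul_left (hb.trans (le_of_eq ?_)) (show (0:ℝ) < r ^ n by positivity)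
  ring

omit [IsLocallyFiniteMeasure μ] in
/-- A scale with a point off the strip contributes a fixed amount to the integral of the gap. -/
lemma scale_mass {x e : Sp d} (he : ‖e‖ = 1) {η r ρ : ℝ} (hη : 0 < η)
    (hη1 : η ≤ 1) (hr : 0 < r) (hrρ : 8 * r ≤ η * ρ)
    (hg : ∀ y ∈ μ.support, 0 ≤ gap x e ρ y) {y : Sp d} (hy : y ∈ μ.support) (hyx : dist y x < r)
    (hη' : η * r < |⟪e, y - x⟫|) :
    ball y (η * r / 6) ⊆ {z | η * r / 4 ≤ dist z x ∧ dist z x < 2 * r} ∧
      ∀ z ∈ ball y (η * r / 6), η * r / 2 / (2 * r) ^ (n + 1) ≤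
        gap x e ρ z / ‖x - z‖ ^ (n + 1) := by
  have hρ : 0 < ρ := by nlinarith
  have hr8 : 8 * r ≤ ρ := hrρ.trans (mul_le_of_le_one_left hρ.le hη1)
  rw [dist_eq_norm] at hyx
  have h0 := hg y hy
  have hsq : ‖y - x‖ ^ 2 / (2 * ρ) ≤ η * r := by
    rw [div_le_iff₀ (by positivity)]
    nlinarith [pow_le_pow_left₀ (norm_nonneg _) hyx.le 2]
  have hgy : η * r ≤ gap x e ρ y := by
    simp only [gap] at h0 ⊢
    rcases lt_abs.1 hη' with h | h
    · linarith
    · linarith [show 0 ≤ ‖y - x‖ ^ 2 / (2 * ρ) by positivity]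
  have main : ∀ z ∈ ball y (η * r / 6),
      η * r / 2 ≤ gap x e ρ z ∧ η * r / 4 ≤ ‖z - x‖ ∧ ‖z - x‖ < 2 * r := by
    intro z hz
    rw [mem_ball, dist_eq_norm] at hz
    have hz1 : ‖z - x‖ < 2 * r := by
      have := norm_add_le (z - y) (y - x)
      rw [sub_add_sub_cancel] at this
      nlinarith
    have hd1 : |⟪e, y - x⟫ - ⟪e, z - x⟫| ≤ η * r / 6 := by
      rw [← inner_sub_right, sub_sub_sub_cancel_right]
      refine (abs_real_inner_le_norm _ _).trans ?_
      rw [he, one_mul, norm_sub_rev]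
      exact hz.le
    have hd2 : ‖y - x‖ ^ 2 / (2 * ρ) - ‖z - x‖ ^ 2 / (2 * ρ) ≤ η * r / 16 := by
      have h2 : ‖y - x‖ - ‖z - x‖ ≤ η * r / 6 := by
        have := norm_sub_norm_le (y - x) (z - x)
        rw [sub_sub_sub_cancel_right] at this
        linarith [norm_sub_rev y z]
      rw [← sub_div, div_le_iff₀ (by positivity)]
      nlinarith [mul_le_mul_of_nonneg_right h2
        (add_nonneg (norm_nonneg (y - x)) (norm_nonneg (z - x))), mul_pos hη hr]
    have hgz : η * r / 2 ≤ gap x e ρ z := by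
      rw [abs_le] at hd1
      simp only [gap] at hgy ⊢
      linarith
    refine ⟨hgz, ?_, hz1⟩
    have h3 := (le_abs_self _).trans (abs_gap_le hρ he (y := z) (x := x) le_rfl)
    have h4 : ‖z - x‖ ^ 2 / (2 * ρ) ≤ ‖z - x‖ := by
      rw [div_le_iff₀ (by positivity)]
      nlinarith [norm_nonneg (z - x)]
    linarith
  refine ⟨fun z hz => ?_, fun z hz => ?_⟩
  · simpa [dist_eq_norm] using (main z hz).2
  · obtain ⟨h1, h2, h3⟩ := main z hz
    rw [norm_sub_rev x z]
    have : 0 < ‖z - x‖ := lt_of_lt_of_le (by positivity) h2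
    exact div_le_div₀ ((by positivity : (0:ℝ) ≤ η * r / 2).trans h1) h1 (by positivity)
      (pow_le_pow_left₀ this.le h3.le _)

end Touch

open Touch Pairing in
/-- **Touching.** -/
theorem touch (hG : GrowthSpec n d) (hP : PairSpec n d) : TouchSpec n d := by
  intro μ _ C₀ hμ η₀ hη₀
  obtain ⟨G, hG0, hGr⟩ := hG μ C₀ hμ 1 le_rfl
  have hG1 := fun x R hR => (hGr x R hR).1
  have hG2 := fun x R hR => (hGr x R hR).2
  simp only [pow_one] at hG2
  have h1 := hμ.one_le
  set η := min η₀ 1 with hηdef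
  have hη : 0 < η := lt_min hη₀ one_pos
  have hη1 : η ≤ 1 := min_le_right _ _
  obtain ⟨j₀, hj₀⟩ : ∃ j : ℕ, 8 / η ≤ (8 : ℝ) ^ j :=
    ⟨_, (pow_unbounded_of_one_lt (8 / η) (by norm_num : (1:ℝ) < 8)).choose_spec.le⟩
  rw [div_le_iff₀ hη] at hj₀
  have hj1 : 1 ≤ j₀ := Nat.one_le_iff_ne_zero.2 fun h => by rw [h, pow_zero] at hj₀; linarith
  set c := η ^ (n + 1) / (2 ^ (n + 2) * 6 ^ n * C₀) with hc
  have hc0 : 0 < c := by positivity
  set E₀ := 4 * G * C₀ ^ 2 * 4 ^ n + kLip n * G * 2⁻¹ with hE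
  obtain ⟨m, hm⟩ := exists_nat_gt (2 ^ (n + 1) * (2 * E₀ + 2 ^ (n + 2) * G + 1) / c)
  rw [div_lt_iff₀ hc0] at hm
  set N := j₀ * (m + 1) with hN
  set A := 16 * C₀ * 16 ^ n with hA
  have hN0 : 0 < (N : ℝ) := by exact_mod_cast Nat.mul_pos hj1 m.succ_pos
  refine ⟨N, 1 / (N * A), by positivity, fun z x ρ hρ hd hx hzx hdis hb => ?_⟩
  set e := ρ⁻¹ • (z - x) with he'
  have he : ‖e‖ = 1 := by
    rw [he', norm_smul, ← dist_eq_norm, hzx, Real.norm_eq_abs, abs_inv, abs_of_pos hρ,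
      inv_mul_cancel₀ hρ.ne']
  have hg : ∀ y ∈ μ.support, 0 ≤ gap x e ρ y := fun y hy => gap_nonneg hρ hzx hdis hy
  have hr : ∀ k : ℕ, 0 < ρ / 8 ^ k := fun k => by positivity
  have hrρ : ∀ k : ℕ, ρ / 8 ^ k ≤ ρ := fun k => div_le_self hρ.le (one_le_pow₀ (by norm_num))
  have hdk : ∀ k : ℕ, ENNReal.ofReal (ρ / 8 ^ k) ≤ Metric.ediam μ.support := fun k =>
    (ENNReal.ofReal_le_ofReal (hrρ k)).trans hd
  by_contra hcon
  push Not at hcon
  have htel : ∀ k ≤ N, pair n μ x ρ (fld μ x (ρ / 8 ^ k) e) ≤ E₀ + k * (A * (1 / (N * A))) := by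
    intro k
    induction k with
    | zero =>
      intro _
      simpa using (le_abs_self _).trans (abs_pair_fld hμ hG1 hG2 hx he hρ hd)
    | succ k ih =>
      intro hk
      have h := (le_abs_self _).trans (step_le hμ hP hG1 hG2 hx he (hr k) (hrρ k) (hdk k))
      rw [div_div, ← pow_succ] at h
      have := mul_le_mul_of_nonneg_left (hb k (Nat.le_of_succ_le hk))
        (show 0 ≤ A by positivity)
      have := ih (Nat.le_of_succ_le hk)
      push_cast
      linarith
  have hUN := (pair_fld_lower hμ hG1 hG2 hx he (hr N) (hdk N) (hrρ N) hg).trans (htel N le_rfl)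
  rw [show (N : ℝ) * (A * (1 / (N * A))) = 1 by
    have : 0 < A := by positivity
    field_simp] at hUN
  set S := ball x (2 * ρ) \ ball x (2 * (ρ / 8 ^ N)) with hS
  set u : Sp d → ℝ := fun w => gap x e ρ w / ‖x - w‖ ^ (n + 1) with hu
  set k : ℕ → ℕ := fun i => j₀ * (i + 1) with hk
  have hkN : ∀ i < m, k i + j₀ ≤ N := fun i hi => by
    have : j₀ * (i + 2) ≤ j₀ * (m + 1) := Nat.mul_le_mul_left _ (by omega)
    simp only [hk, hN]
    linarith
  choose! y hy hyη using fun i => hcon i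
  set r : ℕ → ℝ := fun i => ρ / 8 ^ k i with hrdef
  have h8 : ∀ i, 8 * r i ≤ η * ρ := fun i => by
    simp only [hrdef]
    rw [← mul_div_assoc, div_le_iff₀ (by positivity)]
    have : (8:ℝ) ^ j₀ ≤ 8 ^ k i :=
      pow_le_pow_right₀ (by norm_num) (Nat.le_mul_of_pos_right _ i.succ_pos)
    nlinarith [mul_le_mul_of_nonneg_left this (mul_pos hη hρ).le]
  have hsm := fun i (hi : i < m) => scale_mass (n := n) he hη hη1 (hr (k i)) (h8 i) hg
    (hy (k i) (by linarith [hkN i hi])).1 (mem_ball.1 (hy (k i) (by linarith [hkN i hi])).2)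
    (lt_of_le_of_lt (mul_le_mul_of_nonneg_right (min_le_left _ _) (hr _).le)
      (hyη (k i) (by linarith [hkN i hi])))
  set U : ℕ → Set (Sp d) := fun i => ball (y (k i)) (η * r i / 6) with hU
  have hnum : ∀ i j, k i + j₀ ≤ j → 2 * (ρ / 8 ^ j) ≤ η * r i / 4 := fun i j hij => by
    simp only [hrdef]
    have h2 : (8:ℝ) ^ k i * 8 ^ j₀ ≤ 8 ^ j := by
      rw [← pow_add]; exact pow_le_pow_right₀ (by norm_num) hij
    rw [mul_div_assoc', mul_div_assoc', div_div, div_le_div_iff₀ (by positivity) (by positivity)]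
    nlinarith [mul_le_mul_of_nonneg_left h2 (mul_pos hη hρ).le,
      mul_le_mul_of_nonneg_left hj₀ (show 0 ≤ ρ * 8 ^ k i by positivity)]
  have hsub : ∀ i < m, U i ⊆ S := fun i hi w hw => by
    obtain ⟨h3, h4⟩ := (hsm i hi).1 hw
    refine ⟨mem_ball.2 (h4.trans_le (by linarith [hrρ (k i)])), ?_⟩
    rw [mem_ball, not_lt]
    exact (hnum i N (hkN i hi)).trans h3
  have hdisj : ((Finset.range m : Finset ℕ) : Set ℕ).PairwiseDisjoint U := by
    intro i hi j hj hij
    rw [Finset.coe_range, Set.mem_Iio] at hi hj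
    refine Set.disjoint_left.2 fun w hwi hwj => ?_
    wlog hlt : i < j generalizing i j
    · exact this hj hi hij.symm hwj hwi (lt_of_le_of_ne (not_lt.1 hlt) hij.symm)
    have h3 := ((hsm i hi).1 hwi).1
    have h4 := ((hsm j hj).1 hwj).2
    have h5 := hnum i (k j) (by
      have : j₀ * (i + 2) ≤ j₀ * (j + 1) := Nat.mul_le_mul_left _ (by omega)
      simp only [hk]
      linarith)
    linarith
  have hSm : MeasurableSet S := measurableSet_ball.diff measurableSet_ball
  have : IsFiniteMeasure (μ.restrict S) := isFiniteMeasure_restrict.2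
    (ne_top_of_le_ne_top (hμ.fin x (2 * ρ)) (measure_mono sdiff_subset))
  have iu : IntegrableOn u S μ := by
    refine Integrable.of_bound (by unfold u gap; fun_prop : Measurable u).aestronglyMeasurable
      (((2 * ρ) ^ 2 / (2 * ρ) + 2 * ρ) / (2 * (ρ / 8 ^ N)) ^ (n + 1))
      ((ae_restrict_iff' hSm).2 (Eventually.of_forall fun w hw => ?_))
    have h3 := hw.1
    have h4 := hw.2
    rw [mem_ball, dist_eq_norm] at h3
    rw [mem_ball, not_lt, dist_eq_norm, norm_sub_rev] at h4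
    simp only [u, Real.norm_eq_abs, abs_div]
    rw [abs_of_nonneg (by positivity : (0:ℝ) ≤ ‖x - w‖ ^ (n + 1))]
    exact div_le_div₀ (by positivity) (abs_gap_le hρ he h3.le) (by positivity)
      (pow_le_pow_left₀ (by positivity) h4 _)
  have hsumle : (m : ℝ) * c ≤ ∫ w in S, u w ∂μ := by
    have hUm : (⋃ i ∈ Finset.range m, U i) ⊆ S :=
      Set.iUnion₂_subset fun i hi => hsub i (Finset.mem_range.1 hi)
    have hu0 : 0 ≤ᵐ[μ.restrict S] u := by
      filter_upwards [ae_restrict_of_ae (Measure.support_mem_ae (μ := μ))] with w hw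
      exact div_nonneg (hg w hw) (by positivity)
    refine le_trans ?_ (setIntegral_mono_set iu hu0 hUm.eventuallyLE)
    rw [integral_biUnion_finset _ (fun i _ => measurableSet_ball) hdisj
      fun i hi => iu.mono_set (hsub i (Finset.mem_range.1 hi))]
    calc (m : ℝ) * c = ∑ _i ∈ Finset.range m, c := by simp
      _ ≤ _ := Finset.sum_le_sum fun i hi => ?_
    have hi' := Finset.mem_range.1 hi
    have hb1 : C₀⁻¹ * (η * r i / 6) ^ n ≤ μ.real (U i) :=
      hμ.lower _ (hy (k i) (by linarith [hkN i hi'])).1 _ (by positivity)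
        ((ENNReal.ofReal_le_ofReal (show η * (ρ / 8 ^ k i) / 6 ≤ ρ by
          nlinarith [hr (k i), hrρ (k i)])).trans hd)
    calc c = C₀⁻¹ * (η * r i / 6) ^ n * (η * r i / 2 / (2 * r i) ^ (n + 1)) := by
          have : 0 < r i := hr (k i)
          simp only [hc, div_pow, mul_pow, pow_succ]
          field_simp
      _ ≤ μ.real (U i) * (η * r i / 2 / (2 * r i) ^ (n + 1)) :=
          mul_le_mul_of_nonneg_right hb1 (by have := hr (k i); positivity)
      _ = ∫ _w in U i, η * r i / 2 / (2 * r i) ^ (n + 1) ∂μ := by simp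
      _ ≤ _ := setIntegral_mono_on (integrableOn_const (hμ.fin _ _))
          (iu.mono_set (hsub i hi')) measurableSet_ball (hsm i hi').2
  have h6 : (∫ w in S, u w ∂μ) ≤ 2 ^ (n + 1) * (2 * E₀ + 2 ^ (n + 2) * G + 1) := by
    rw [mul_comm, ← div_le_iff₀ (by positivity)]
    simp only [hE, u] at hUN ⊢
    linarith
  linarith

end Vale.Agent.P120
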